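import Vale.Agent.P217.A.Height
import Vale.Agent.P217.EF.Basic
import Vale.Agent.P217.Jac.Pins

/-!
# P217, block A: multiplication by p modulo p
-/

noncomputable section

namespace Vale.Agent.P217.FE

open Finset

variable {p : ℕ} {B K : Type*} [CommRing B] [CommRing K] {τ : Type*} (D : Data p B K)

theorem coeff_pow_congr {h h' : MvPowerSeries τ K} (h0 : h.constantCoeff = 0)
    (h'0 : h'.constantCoeff = 0) {d : ℕ}
    (hh : ∀ m : τ →₀ ℕ, m.degree < d → h.coeff m = h'.coeff m) {N : ℕ} (hN : 2 ≤ N)
    {m : τ →₀ ℕ} (hm : m.degree ≤ d) : (h ^ N).coeff m = (h' ^ N).coeff m := by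
  by_cases hz : d = 0
  · rw [coeff_pow_eq_zero_of_degree_lt h0 (by omega),
      coeff_pow_eq_zero_of_degree_lt h'0 (by omega)]
  have hord : ((d : ℕ) : ℕ∞) ≤ (h - h').order :=
    MvPowerSeries.nat_le_order fun m' hm' => by rw [map_sub, hh m' hm', sub_self]
  have hgeom : ((1 : ℕ) : ℕ∞) ≤ (∑ i ∈ range N, h ^ i * h' ^ (N - 1 - i)).order :=
    MvPowerSeries.nat_le_order fun m' hm' => by
      obtain rfl : m' = 0 := (Finsupp.degree_eq_zero_iff m').1 (by omega)
      rw [MvPowerSeries.coeff_zero_eq_constantCoeff_apply, map_sum]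
      refine sum_eq_zero fun i hi => ?_
      rw [map_mul, map_pow, map_pow, h0, h'0, ← pow_add, zero_pow]
      have := mem_range.1 hi
      omega
  have hz' : (h ^ N - h' ^ N).coeff m = 0 := by
    rw [← geom_sum₂_mul h h' N]
    refine MvPowerSeries.coeff_of_lt_order (lt_of_lt_of_le ?_
      (le_trans (add_le_add hgeom hord) MvPowerSeries.le_order_mul))
    exact_mod_cast (show m.degree < 1 + d by omega)
  rwa [map_sub, sub_eq_zero] at hz'

/-- If `f ∘ h` has integral coefficients divisible by p then so has `h`. -/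
theorem Data.exists_small (hp : 1 < p) {h : MvPowerSeries τ K} (h0 : h.constantCoeff = 0)
    (hy : ∀ m, ∃ b, D.ι ((p : B) * b) = MvPowerSeries.coeff m (PowerSeries.subst h D.f)) :
    ∃ hB : MvPowerSeries τ B,
      MvPowerSeries.map D.ι (MvPowerSeries.C (p : B) * hB) = h := by
  have key : ∀ d, ∀ m : τ →₀ ℕ, m.degree = d → ∃ b, D.ι ((p : B) * b) = h.coeff m := by
    intro d
    induction d using Nat.strong_induction_on with
    | _ d ih =>
      intro m hm
      classical
      let hB : MvPowerSeries τ B := fun m' =>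
        if hm' : m'.degree < d then (ih _ hm' m' rfl).choose else 0
      set h' : MvPowerSeries τ K := MvPowerSeries.map D.ι (MvPowerSeries.C (p : B) * hB)
      have hlow : ∀ m' : τ →₀ ℕ, m'.degree < d → h.coeff m' = h'.coeff m' := fun m' hm' => by
        rw [MvPowerSeries.coeff_map, MvPowerSeries.coeff_C_mul]
        show _ = D.ι ((p : B) * hB m')
        simp only [hB, dif_pos hm']
        exact ((ih _ hm' m' rfl).choose_spec).symm
      have h'0 : h'.constantCoeff = 0 := by
        by_cases hz : 0 < d
        · rw [← MvPowerSeries.coeff_zero_eq_constantCoeff_apply, ← hlow 0 (by simpa using hz),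
            MvPowerSeries.coeff_zero_eq_constantCoeff_apply, h0]
        · rw [← MvPowerSeries.coeff_zero_eq_constantCoeff_apply, MvPowerSeries.coeff_map,
            MvPowerSeries.coeff_C_mul]
          show D.ι ((p : B) * hB 0) = 0
          simp [hB, hz]
      obtain ⟨y, hy'⟩ := hy m
      rw [Data.f, coeff_subst_pser hp D.M h0 m (D := d) hm.le, sum_range_succ', D.M_zero, pow_zero,
        pow_one, one_mul] at hy'
      have hterm : ∀ k, ∃ b, D.ι ((p : B) * b) = D.M (k + 1) * (h ^ p ^ (k + 1)).coeff m := by
        intro k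
        rw [coeff_pow_congr h0 h'0 hlow (le_trans hp (Nat.le_self_pow (by omega) p)) hm.le]
        obtain ⟨b, hb⟩ := D.exists_M_int (k + 1)
        obtain ⟨r, hr⟩ : ∃ r, p ^ (k + 1) = (k + 1) + 1 + r :=
          ⟨p ^ (k + 1) - ((k + 1) + 1), by have := Nat.lt_pow_self (n := k + 1) hp; omega⟩
        refine ⟨b * (p : B) ^ r * MvPowerSeries.coeff m (hB ^ p ^ (k + 1)), ?_⟩
        simp only [h']
        rw [← map_pow, mul_pow, ← map_pow, MvPowerSeries.coeff_map, MvPowerSeries.coeff_C_mul]
        simp only [map_mul, map_pow, map_natCast, hr, pow_add, pow_one, hb]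
        ring
      obtain ⟨S, hS⟩ : ∃ b, D.ι ((p : B) * b) =
          ∑ k ∈ range d, D.M (k + 1) * (h ^ p ^ (k + 1)).coeff m := by
        refine sum_induction _ (fun x => ∃ b, D.ι ((p : B) * b) = x) ?_ ⟨0, by simp⟩
          fun k _ => hterm k
        rintro _ _ ⟨a, rfl⟩ ⟨b, rfl⟩
        exact ⟨a + b, by rw [mul_add, map_add]⟩
      exact ⟨y - S, by rw [mul_sub, map_sub, hy', hS, add_sub_cancel_left]⟩
  choose b hb using fun m => key _ m rfl
  let bs : MvPowerSeries τ B := fun m => b m
  exact ⟨bs, MvPowerSeries.ext fun m => by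
    rw [MvPowerSeries.coeff_map, MvPowerSeries.coeff_C_mul]; exact hb m⟩

/-- The law with the given logarithm is unique. -/
theorem Data.unique (hp : 1 < p) {G G' : FormalGroup B}
    (hG : PowerSeries.subst (G.map D.ι).toPowerSeries D.f =
      PowerSeries.subst (MvPowerSeries.X 0 : MvPowerSeries (Fin 2) K) D.f +
        PowerSeries.subst (MvPowerSeries.X 1 : MvPowerSeries (Fin 2) K) D.f)
    (hG' : PowerSeries.subst (G'.map D.ι).toPowerSeries D.f =
      PowerSeries.subst (MvPowerSeries.X 0 : MvPowerSeries (Fin 2) K) D.f +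
        PowerSeries.subst (MvPowerSeries.X 1 : MvPowerSeries (Fin 2) K) D.f) : G = G' := by
  have h := subst_injective D.constantCoeff_f (D.coeff_one_f hp ▸ isUnit_one)
    (G.map D.ι).zero_constantCoeff (G'.map D.ι).zero_constantCoeff (hG.trans hG'.symm)
  refine FormalGroup.ext (MvPowerSeries.ext fun m => D.inj ?_)
  have hm := congrArg (MvPowerSeries.coeff m) h
  simpa only [FormalGroup.map_toPowerSeries, MvPowerSeries.coeff_map] using hm

/-- A map of data carries the law to the law. -/
theorem Data.map_log {B' K' : Type*} [CommRing B'] [CommRing K'] (D' : Data p B' K') (gB : B →+* B')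
    (gK : K →+* K') (hg : ∀ b, gK (D.ι b) = D'.ι (gB b)) (hM : ∀ k, gK (D.M k) = D'.M k)
    {G : FormalGroup B}
    (hG : PowerSeries.subst (G.map D.ι).toPowerSeries D.f =
      PowerSeries.subst (MvPowerSeries.X 0 : MvPowerSeries (Fin 2) K) D.f +
        PowerSeries.subst (MvPowerSeries.X 1 : MvPowerSeries (Fin 2) K) D.f) :
    PowerSeries.subst ((G.map gB).map D'.ι).toPowerSeries D'.f =
      PowerSeries.subst (MvPowerSeries.X 0 : MvPowerSeries (Fin 2) K') D'.f +
        PowerSeries.subst (MvPowerSeries.X 1 : MvPowerSeries (Fin 2) K') D'.f := by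
  have h := congrArg (MvPowerSeries.map gK) hG
  have hX : ∀ i : Fin 2, PowerSeries.HasSubst (MvPowerSeries.X i : MvPowerSeries (Fin 2) K) :=
    fun i => PowerSeries.HasSubst.of_constantCoeff_zero (MvPowerSeries.constantCoeff_X i)
  rw [map_add, PowerSeries.map_subst (PowerSeries.HasSubst.of_constantCoeff_zero
    (G.map D.ι).zero_constantCoeff), PowerSeries.map_subst (hX 0), PowerSeries.map_subst (hX 1),
    MvPowerSeries.map_X, MvPowerSeries.map_X, Data.f, map_pser] at h
  have e : MvPowerSeries.map gK (G.map D.ι).toPowerSeries =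
      ((G.map gB).map D'.ι).toPowerSeries := by
    ext m
    simp [FormalGroup.map_toPowerSeries, hg]
  rw [e] at h
  simpa only [hM, Data.f] using h

end Vale.Agent.P217.FE

namespace Vale.Agent.P217

open Finset

theorem seriesSum_constantCoeff {R : Type} [CommRing R] (G : FormalGroup R) :
    ∀ {L : List (PowerSeries R)}, (∀ a ∈ L, PowerSeries.constantCoeff a = 0) →
      PowerSeries.constantCoeff (seriesSum G L) = 0
  | [], _ => map_zero _
  | a :: as, h => by
    have hz : ∀ i : Fin 2, (![a, seriesSum G as] i).constantCoeff = 0 := fun i => by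
      fin_cases i
      · exact h a (List.mem_cons_self ..)
      · exact seriesSum_constantCoeff G fun b hb => h b (List.mem_cons_of_mem _ hb)
    exact MvPowerSeries.constantCoeff_subst_eq_zero
      (MvPowerSeries.hasSubst_of_constantCoeff_zero hz) hz G.zero_constantCoeff

theorem seriesSum_hasSubst {R : Type} [CommRing R] (G : FormalGroup R) {a : PowerSeries R}
    {as : List (PowerSeries R)} (h : ∀ b ∈ a :: as, PowerSeries.constantCoeff b = 0) :
    MvPowerSeries.HasSubst ![a, seriesSum G as] :=
  MvPowerSeries.hasSubst_of_constantCoeff_zero fun i => by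
    fin_cases i
    · exact h a (List.mem_cons_self ..)
    · exact seriesSum_constantCoeff G fun b hb => h b (List.mem_cons_of_mem _ hb)

theorem map_seriesSum {R S : Type} [CommRing R] [CommRing S] (g : R →+* S) (G : FormalGroup R) :
    ∀ {L : List (PowerSeries R)}, (∀ a ∈ L, PowerSeries.constantCoeff a = 0) →
      PowerSeries.map g (seriesSum G L) = seriesSum (G.map g) (L.map (PowerSeries.map g))
  | [], _ => map_zero _
  | a :: as, h => by
    show MvPowerSeries.map g (MvPowerSeries.subst ![a, seriesSum G as] G.toPowerSeries) = _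
    rw [MvPowerSeries.map_subst (seriesSum_hasSubst G h)]
    refine congrArg₂ _ (funext fun i => ?_) rfl
    fin_cases i
    · rfl
    · exact map_seriesSum g G fun b hb => h b (List.mem_cons_of_mem _ hb)

/-- A sum of series in the powers of a power of the variable is one too. -/
theorem seriesSum_expand {R : Type} [CommRing R] (G : FormalGroup R) {Q : ℕ} (hQ : Q ≠ 0) :
    ∀ {L : List (PowerSeries R)}, (∀ a ∈ L, PowerSeries.constantCoeff a = 0) →
      seriesSum G (L.map (PowerSeries.expand Q hQ)) = PowerSeries.expand Q hQ (seriesSum G L)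
  | [], _ => (map_zero _).symm
  | a :: as, h => by
    show _ = MvPowerSeries.expand Q hQ (MvPowerSeries.subst ![a, seriesSum G as] G.toPowerSeries)
    rw [MvPowerSeries.expand_subst _ _ (seriesSum_hasSubst G h)]
    refine congrArg₂ _ (funext fun i => ?_) rfl
    fin_cases i
    · rfl
    · exact seriesSum_expand G hQ fun b hb => h b (List.mem_cons_of_mem _ hb)

theorem seriesSum_zeros {R : Type} [CommRing R] (G : FormalGroup R) {a : PowerSeries R}
    (ha : PowerSeries.constantCoeff a = 0) :
    ∀ {L : List (PowerSeries R)}, (∀ b ∈ L, b = 0) → seriesSum G (L ++ [a]) = a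
  | [], _ => G.add_zero (PowerSeries.HasSubst.of_constantCoeff_zero' ha)
  | b :: bs, h => by
    show MvPowerSeries.subst ![b, seriesSum G (bs ++ [a])] G.toPowerSeries = a
    rw [seriesSum_zeros G ha fun c hc => h c (List.mem_cons_of_mem _ hc),
      h b (List.mem_cons_self ..)]
    exact G.zero_add (PowerSeries.HasSubst.of_constantCoeff_zero' ha)

variable {p : ℕ} {B : Type} {K : Type*} [CommRing B] [CommRing K] (D : FE.Data p B K)

theorem log_seriesSum {G : FormalGroup B}
    (hG : PowerSeries.subst (G.map D.ι).toPowerSeries D.f =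
      PowerSeries.subst (MvPowerSeries.X 0 : MvPowerSeries (Fin 2) K) D.f +
        PowerSeries.subst (MvPowerSeries.X 1 : MvPowerSeries (Fin 2) K) D.f) :
    ∀ {L : List (PowerSeries B)}, (∀ a ∈ L, PowerSeries.constantCoeff a = 0) →
      PowerSeries.subst (PowerSeries.map D.ι (seriesSum G L)) D.f =
        (L.map fun a => (PowerSeries.subst (PowerSeries.map D.ι a) D.f : PowerSeries K)).sum
  | [], _ => by
    rw [seriesSum, map_zero, List.map_nil, List.sum_nil]
    exact PowerSeries.subst_zero_of_constantCoeff_zero D.constantCoeff_f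
  | a :: as, h => by
    have hz : ∀ b ∈ as, PowerSeries.constantCoeff b = 0 :=
      fun b hb => h b (List.mem_cons_of_mem _ hb)
    have h0 : ∀ {b : PowerSeries B}, PowerSeries.constantCoeff b = 0 →
        PowerSeries.constantCoeff (PowerSeries.map D.ι b) = 0 := fun {b} hb => by
      rw [← PowerSeries.coeff_zero_eq_constantCoeff_apply, PowerSeries.coeff_map,
        PowerSeries.coeff_zero_eq_constantCoeff_apply, hb, map_zero]
    have hmap : PowerSeries.map D.ι (seriesSum G (a :: as)) =
        MvPowerSeries.subst ![PowerSeries.map D.ι a, PowerSeries.map D.ι (seriesSum G as)]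
          (G.map D.ι).toPowerSeries := by
      show MvPowerSeries.map D.ι (MvPowerSeries.subst ![a, seriesSum G as] G.toPowerSeries) = _
      rw [MvPowerSeries.map_subst (seriesSum_hasSubst G h)]
      refine congrArg₂ _ (funext fun i => ?_) rfl
      fin_cases i <;> rfl
    rw [hmap, FE.log_add (G.map D.ι).zero_constantCoeff hG (h0 (h a (List.mem_cons_self ..)))
      (h0 (seriesSum_constantCoeff G hz)), log_seriesSum hG hz, List.map_cons, List.sum_cons]

/-- The terms of multiplication by p modulo p. -/
def pTerm (i : ℕ) : PowerSeries B :=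
  PowerSeries.C (D.w (i + 1)) * PowerSeries.X ^ p ^ (i + 1)

theorem constantCoeff_pTerm [Fact p.Prime] (i : ℕ) :
    PowerSeries.constantCoeff (pTerm D i) = 0 := by
  rw [pTerm, map_mul, map_pow, PowerSeries.constantCoeff_X,
    zero_pow (pow_ne_zero _ (Fact.out : p.Prime).ne_zero), mul_zero]

theorem p_mul_f [Fact p.Prime] (hp : 1 < p) {n : ℕ} (hw : ∀ i, n < i → D.w i = 0) :
    (p : PowerSeries K) * D.f = PowerSeries.C (p : K) * PowerSeries.X +
      ((List.range n).map fun i =>
        (PowerSeries.subst (PowerSeries.map D.ι (pTerm D i)) D.f : PowerSeries K)).sum := by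
  ext N
  have hsum : ∀ (L : List ℕ) (g : ℕ → PowerSeries K),
      PowerSeries.coeff N (L.map g).sum = (L.map fun i => PowerSeries.coeff N (g i)).sum :=
    fun L g => by
      induction L with
      | nil => simp
      | cons a as ih => simp [ih]
  have hq : ∀ i, PowerSeries.coeff N
      (PowerSeries.subst (PowerSeries.map D.ι (pTerm D i)) D.f : PowerSeries K) =
      ∑ j ∈ range (N + 1), if N = p ^ (i + 1 + j) then
        D.M j * D.ι (D.w (i + 1)) ^ p ^ j else 0 := by
    intro i
    have h0 : PowerSeries.constantCoeff (PowerSeries.map D.ι (pTerm D i)) = 0 := by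
      rw [← PowerSeries.coeff_zero_eq_constantCoeff_apply, PowerSeries.coeff_map,
        PowerSeries.coeff_zero_eq_constantCoeff_apply, constantCoeff_pTerm, map_zero]
    rw [show PowerSeries.coeff N (PowerSeries.subst (PowerSeries.map D.ι (pTerm D i)) D.f :
        PowerSeries K) = MvPowerSeries.coeff (Finsupp.single () N)
          (PowerSeries.subst (PowerSeries.map D.ι (pTerm D i)) D.f) from rfl,
      FE.Data.f, FE.coeff_subst_pser hp D.M h0 _ (Finsupp.degree_single () N).le]
    refine sum_congr rfl fun j _ => ?_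
    show D.M j * PowerSeries.coeff N (PowerSeries.map D.ι (pTerm D i) ^ p ^ j) = _
    rw [pTerm, map_mul, PowerSeries.map_C, map_pow (PowerSeries.map D.ι), PowerSeries.map_X,
      mul_pow, ← map_pow (PowerSeries.C (R := K)), ← pow_mul, ← pow_add, PowerSeries.coeff_C_mul,
      PowerSeries.coeff_X_pow]
    split_ifs <;> simp
  rw [map_add, hsum, ← map_natCast (PowerSeries.C (R := K)) p, PowerSeries.coeff_C_mul,
    PowerSeries.coeff_C_mul, PowerSeries.coeff_X, List.map_congr_left fun i _ => hq i,
    ← List.sum_toFinset _ List.nodup_range, List.toFinset_range]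
  by_cases hN : N = p ^ Nat.log p N
  · obtain ⟨e, he⟩ : ∃ e, Nat.log p N = e := ⟨_, rfl⟩
    rw [he] at hN
    subst hN
    simp only [FE.Data.f, FE.pser, PowerSeries.coeff_mk, Nat.log_pow hp, if_true,
      Nat.pow_right_injective hp |>.eq_iff]
    rcases e with - | e
    · rw [Finset.sum_eq_zero fun i _ => sum_eq_zero fun j _ => if_neg (by omega)]
      simp [D.M_zero]
    · rw [if_neg (Nat.one_lt_pow (by omega) hp).ne', mul_zero, zero_add, D.M_succ, sum_comm]
      have hbound : range (e + 1) ⊆ range (p ^ (e + 1) + 1) := range_subset_range.2 (by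
        have := Nat.lt_pow_self (n := e + 1) hp; omega)
      rw [← sum_subset hbound fun j _ hj => ?_]
      · refine sum_congr rfl fun j hj => ?_
        rw [mem_range] at hj
        by_cases hi : e - j < n
        · rw [sum_eq_single (e - j)]
          · rw [if_pos (by omega), show e - j + 1 = e + 1 - j by omega]
          · intro b _ hb; rw [if_neg (by omega)]
          · intro hb; exact absurd (mem_range.2 hi) hb
        · rw [hw _ (by omega), map_zero, zero_pow (pow_ne_zero _ (by omega)), mul_zero,
            sum_eq_zero]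
          intro b hb
          rw [mem_range] at hb
          rw [if_neg (by omega)]
      · rw [mem_range] at hj
        refine sum_eq_zero fun b _ => ?_
        rw [if_neg (by omega)]
  · rw [Finset.sum_eq_zero fun i _ => sum_eq_zero fun j _ => if_neg ?_, if_neg ?_]
    · simp [FE.Data.f, FE.pser, hN]
    · intro h1; subst h1; simp at hN
    · intro h2; subst h2; rw [Nat.log_pow hp] at hN; exact hN rfl

/-- Multiplication by p modulo any ring map killing p. -/
theorem nsmul_p_mod [Fact p.Prime] (hp : 1 < p) {n : ℕ} (hw : ∀ i, n < i → D.w i = 0)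
    {G : FormalGroup B}
    (hG : PowerSeries.subst (G.map D.ι).toPowerSeries D.f =
      PowerSeries.subst (MvPowerSeries.X 0 : MvPowerSeries (Fin 2) K) D.f +
        PowerSeries.subst (MvPowerSeries.X 1 : MvPowerSeries (Fin 2) K) D.f)
    {S : Type} [CommRing S] (q : B →+* S) (hq : q (p : B) = 0) :
    PowerSeries.map q (nsmulSeries G p) =
      seriesSum (G.map q) ((List.range n).map fun i => PowerSeries.map q (pTerm D i)) := by
  set L := (List.range n).map fun i => pTerm D i with hLdef
  have hL : ∀ a ∈ L, PowerSeries.constantCoeff a = 0 := fun a ha => by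
    obtain ⟨i, -, rfl⟩ := List.mem_map.1 ha
    exact constantCoeff_pTerm D i
  have hrep : ∀ a ∈ List.replicate p (PowerSeries.X : PowerSeries B),
      PowerSeries.constantCoeff a = 0 := fun a ha => by
    rw [List.eq_of_mem_replicate ha]; exact PowerSeries.constantCoeff_X
  have hf0 := D.constantCoeff_f
  have hf1 : IsUnit (PowerSeries.coeff 1 D.f) := D.coeff_one_f hp ▸ isUnit_one
  have hpX0 : PowerSeries.constantCoeff (PowerSeries.C (p : K) * PowerSeries.X) = 0 := by
    rw [map_mul, PowerSeries.constantCoeff_X, mul_zero]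
  have hpXs := PowerSeries.HasSubst.of_constantCoeff_zero' hpX0
  set z : PowerSeries K :=
    PowerSeries.subst (PowerSeries.C (p : K) * PowerSeries.X) (D.f.substInvOfIsUnit hf1) with hz
  have hz0 : PowerSeries.constantCoeff z = 0 := PowerSeries.constantCoeff_subst_eq_zero hpX0 _
    (PowerSeries.constantCoeff_substInvOfIsUnit _ hf1)
  have hfz : PowerSeries.subst z D.f = PowerSeries.C (p : K) * PowerSeries.X := by
    rw [hz, ← PowerSeries.subst_comp_subst_apply (PowerSeries.HasSubst.substInvOfIsUnit _ hf1)
      hpXs, PowerSeries.subst_substInvOfIsUnit_right _ hf0, PowerSeries.subst_X hpXs]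
  obtain ⟨zB, hzB⟩ := D.exists_small hp hz0 fun m => by
    refine ⟨MvPowerSeries.coeff m (PowerSeries.X : PowerSeries B), ?_⟩
    rw [hfz, map_mul, map_natCast, ← MvPowerSeries.coeff_map]
    show _ = MvPowerSeries.coeff m (MvPowerSeries.C (p : K) * PowerSeries.X)
    rw [MvPowerSeries.coeff_C_mul]
    exact congrArg (fun t => (p : K) * MvPowerSeries.coeff m t) (PowerSeries.map_X D.ι)
  set z' : PowerSeries B := MvPowerSeries.C (p : B) * zB
  have hz'0 : PowerSeries.constantCoeff z' = 0 := D.inj (by
    rw [map_zero, ← hz0, ← hzB, ← PowerSeries.coeff_zero_eq_constantCoeff_apply,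
      ← PowerSeries.coeff_zero_eq_constantCoeff_apply]
    exact (PowerSeries.coeff_map _ _ _).symm)
  have hLz : ∀ a ∈ z' :: L, PowerSeries.constantCoeff a = 0 := fun a ha => by
    rcases List.mem_cons.1 ha with rfl | ha
    · exact hz'0
    · exact hL a ha
  have hi0 : ∀ {b : PowerSeries B}, PowerSeries.constantCoeff b = 0 →
      PowerSeries.constantCoeff (PowerSeries.map D.ι b) = 0 := fun {b} hb => by
    rw [← PowerSeries.coeff_zero_eq_constantCoeff_apply, PowerSeries.coeff_map,
      PowerSeries.coeff_zero_eq_constantCoeff_apply, hb, map_zero]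
  have hP : PowerSeries.map D.ι (nsmulSeries G p) =
      PowerSeries.map D.ι (seriesSum G (z' :: L)) := by
    refine FE.subst_injective hf0 hf1 (hi0 (seriesSum_constantCoeff G hrep))
      (hi0 (seriesSum_constantCoeff G hLz)) ?_
    rw [nsmulSeries, log_seriesSum D hG hrep, log_seriesSum D hG hLz, List.map_replicate,
      List.sum_replicate, List.map_cons, List.sum_cons, PowerSeries.map_X, PowerSeries.X_subst,
      nsmul_eq_mul, p_mul_f D hp hw, hLdef, List.map_map]
    refine congrArg₂ (· + ·) ?_ rfl
    rw [← hfz]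
    exact congrArg (fun t => PowerSeries.subst t D.f) hzB.symm
  have hP' : nsmulSeries G p = seriesSum G (z' :: L) := PowerSeries.ext fun N => D.inj (by
    rw [← PowerSeries.coeff_map, hP, PowerSeries.coeff_map])
  have hqz : PowerSeries.map q z' = 0 := by
    show MvPowerSeries.map q (MvPowerSeries.C (p : B) * zB) = 0
    rw [map_mul, MvPowerSeries.map_C, hq, map_zero, zero_mul]
  rw [hP', map_seriesSum q G hLz, List.map_cons, hqz, hLdef, List.map_map]
  refine FormalGroup.zero_add _ (PowerSeries.HasSubst.of_constantCoeff_zero'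
    (seriesSum_constantCoeff _ fun a ha => ?_))
  obtain ⟨i, -, rfl⟩ := List.mem_map.1 ha
  rw [Function.comp_apply, ← PowerSeries.coeff_zero_eq_constantCoeff_apply, PowerSeries.coeff_map,
    PowerSeries.coeff_zero_eq_constantCoeff_apply, constantCoeff_pTerm, map_zero]

end Vale.Agent.P217

namespace Vale.Agent.P217

variable {p n : ℕ} [Fact p.Prime]

theorem nsmul_p_coeff_dvd {F : FormalGroup (E0 p n)} (hF : IsUniversalDeformation p n F) {h : ℕ}
    (hh : 1 ≤ h) (hn : h ≤ n) {k : ℕ} (hk : ¬ p ^ h ∣ k) :
    PowerSeries.coeff k (nsmulSeries F p) ∈ heightIdeal p n h := by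
  have hp : 1 < p := (Fact.out : p.Prime).one_lt
  let q := Ideal.Quotient.mk (heightIdeal p n h)
  have hq : q (p : E0 p n) = 0 := Ideal.Quotient.eq_zero_iff_mem.2 (natCast_mem_heightIdeal hh)
  rw [← Ideal.Quotient.eq_zero_iff_mem]
  show q _ = 0
  rw [← PowerSeries.coeff_map,
    nsmul_p_mod (ltData p n) hp (fun i hi => vv_eq_zero p n hi) hF q hq]
  have hQ : p ^ h ≠ 0 := pow_ne_zero _ (by omega)
  let t : ℕ → PowerSeries (E0 p n ⧸ heightIdeal p n h) := fun i =>
    if i + 1 < h then 0 else PowerSeries.C (q (vv p n (i + 1))) * PowerSeries.X ^ p ^ (i + 1 - h)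
  have e : ((List.range n).map fun i => PowerSeries.map q (pTerm (ltData p n) i)) =
      ((List.range n).map t).map (PowerSeries.expand (p ^ h) hQ) := by
    rw [List.map_map]
    refine List.map_congr_left fun i _ => ?_
    simp only [t, Function.comp_apply, pTerm, ltData, map_mul, PowerSeries.map_C, map_pow,
      PowerSeries.map_X]
    split_ifs with hi
    · rw [map_zero, show q (vv p n (i + 1)) = 0 from Ideal.Quotient.eq_zero_iff_mem.2 ?_,
        map_zero, zero_mul]
      rw [heightIdeal, if_neg (by omega)]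
      exact Ideal.subset_span (Or.inr ⟨i + 1, by omega, hi, rfl⟩)
    · rw [map_mul, PowerSeries.expand_C, map_pow, PowerSeries.expand_X, ← pow_mul, ← pow_add,
        Nat.add_sub_cancel' (by omega)]
  rw [e, seriesSum_expand _ hQ fun a ha => ?_, PowerSeries.coeff_expand_of_not_dvd _ hQ _ hk]
  obtain ⟨i, -, rfl⟩ := List.mem_map.1 ha
  simp only [t]
  split_ifs
  · exact map_zero _
  · rw [map_mul, map_pow, PowerSeries.constantCoeff_X, zero_pow (pow_ne_zero _ (by omega)),
      mul_zero]

theorem honda_nsmul_p {h : ℕ} (hh : 1 ≤ h) {G : FormalGroup ℤ_[p]} (hG : IsHondaLift h G) :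
    PowerSeries.map (PadicInt.toZMod (p := p)) (nsmulSeries G p) = PowerSeries.X ^ p ^ h := by
  have hp : 1 < p := (Fact.out : p.Prime).one_lt
  have hf : (hondaData p h hh).f = PowerSeries.mk fun N =>
      if N = p ^ Nat.log p N ∧ h ∣ Nat.log p N then 1 / (p : ℚ_[p]) ^ (Nat.log p N / h) else 0 := by
    ext N
    simp only [FE.Data.f, FE.pser, hondaData, PowerSeries.coeff_mk]
    by_cases h1 : N = p ^ Nat.log p N
    · by_cases h2 : h ∣ Nat.log p N
      · rw [if_pos h1, if_pos h2, if_pos ⟨h1, h2⟩]
      · rw [if_pos h1, if_neg h2, if_neg fun hc => h2 hc.2]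
    · rw [if_neg h1, if_neg fun hc => h1 hc.1]
  have hG' : PowerSeries.subst (G.map (hondaData p h hh).ι).toPowerSeries (hondaData p h hh).f =
      PowerSeries.subst (MvPowerSeries.X 0 : MvPowerSeries (Fin 2) ℚ_[p]) (hondaData p h hh).f +
        PowerSeries.subst (MvPowerSeries.X 1 : MvPowerSeries (Fin 2) ℚ_[p]) (hondaData p h hh).f := by
    rw [hf]
    exact hG
  rw [nsmul_p_mod (hondaData p h hh) hp (n := h) (fun i hi => if_neg (by omega)) hG'
    (PadicInt.toZMod (p := p)) (by rw [map_natCast, ZMod.natCast_self])]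
  obtain ⟨h', rfl⟩ : ∃ h', h = h' + 1 := ⟨h - 1, by omega⟩
  rw [List.range_succ, List.map_append, List.map_singleton]
  have hlast : PowerSeries.map (PadicInt.toZMod (p := p)) (pTerm (hondaData p (h' + 1) hh) h') =
      PowerSeries.X ^ p ^ (h' + 1) := by
    simp [pTerm, hondaData]
  rw [hlast]
  refine seriesSum_zeros _ (by simp [zero_pow (pow_ne_zero (h' + 1) (by omega : p ≠ 0))])
    fun b hb => ?_
  obtain ⟨i, hi, rfl⟩ := List.mem_map.1 hb
  rw [List.mem_range] at hi
  simp [pTerm, hondaData, hi.ne]

/-- Multiplication by p in both laws, as needed for the Jacobian part. -/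
theorem coeffPin : EF.CoeffPin := by
  intro p n _ hn
  refine ⟨fun F hF h hh hle =>
    ⟨fun k hk => nsmul_p_coeff_dvd hF hh hle hk, (nsmul_p_coeff hF hh hle).2⟩, ?_⟩
  intro G hG C _ _ _ _ z hz
  have hle : ∀ r : ZMod p, ‖(ZMod.castHom (dvd_refl p) C) r‖ ≤ 1 := fun r => by
    obtain ⟨k, rfl⟩ := ZMod.natCast_zmod_surjective r
    rw [map_natCast]
    exact IsUltrametricDist.norm_natCast_le_one C k
  rw [hondaIn, ← EF.peval_nsmulSeries
      (j := (ZMod.castHom (dvd_refl p) C).comp (PadicInt.toZMod (p := p))) (fun r => hle _) G p hz,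
    ← Eval.peval_map, honda_nsmul_p hn hG]
  conv_lhs => rw [← one_mul (PowerSeries.X ^ p ^ n), ← map_one (PowerSeries.C (R := ZMod p)),
    Eval.peval_C_mul_X_pow]
  rw [map_one, one_mul]

end Vale.Agent.P217
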