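import Mathlib

/-!
# P217, block A: the functional equation lemma

For a p-torsion free ring `B` inside `K` in which `p` is invertible, a Frobenius lift `σ` and
parameters `w`, the series `f = sum M k * X ^ (p ^ k)` has the property: for a series `h` without
constant term, `h` is integral iff `L (f ∘ h)` is integral, where
`L g = g - sum over a ≥ 1 of (w a / p) * (σ ^ a g) (X ^ (p ^ a))`.
-/

noncomputable section

namespace Vale.Agent.P217.FE

open Finset

/-- Agreement of the coefficients up to degree `d`. -/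
def AgreeUpTo {τ K : Type*} [CommRing K] (d : ℕ) (h h' : MvPowerSeries τ K) : Prop :=
  ∀ m : τ →₀ ℕ, m.degree ≤ d → h.coeff m = h'.coeff m

theorem coeff_pow_eq_zero_of_degree_lt {τ K : Type*} [CommRing K] {h : MvPowerSeries τ K}
    (h0 : h.constantCoeff = 0) {N : ℕ} {m : τ →₀ ℕ} (hm : m.degree < N) :
    (h ^ N).coeff m = 0 := by
  refine MvPowerSeries.coeff_of_lt_order (lt_of_lt_of_le ?_
    (MvPowerSeries.le_order_pow_of_constantCoeff_eq_zero N h0))
  exact_mod_cast hm

theorem AgreeUpTo.pow {τ K : Type*} [CommRing K] {d : ℕ} {h h' : MvPowerSeries τ K}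
    (hh : AgreeUpTo d h h') (N : ℕ) : AgreeUpTo d (h ^ N) (h' ^ N) := by
  intro m hm
  have hord : ((d + 1 : ℕ) : ℕ∞) ≤ (h - h').order :=
    MvPowerSeries.nat_le_order fun m' hm' => by
      rw [map_sub, hh m' (Nat.lt_succ_iff.1 hm'), sub_self]
  have hz : (h ^ N - h' ^ N).coeff m = 0 := by
    rw [← geom_sum₂_mul h h' N, mul_comm]
    refine MvPowerSeries.coeff_of_lt_order (lt_of_lt_of_le ?_
      (le_trans (le_trans hord (le_self_add)) MvPowerSeries.le_order_mul))
    exact_mod_cast Nat.lt_succ_iff.2 hm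
  rwa [map_sub, sub_eq_zero] at hz

/-- A series supported on the powers of `p`, with the given coefficients. -/
def pser (p : ℕ) {K : Type*} [CommRing K] (c : ℕ → K) : PowerSeries K :=
  PowerSeries.mk fun N => if N = p ^ Nat.log p N then c (Nat.log p N) else 0

theorem map_pser (p : ℕ) {K K' : Type*} [CommRing K] [CommRing K'] (g : K →+* K') (c : ℕ → K) :
    PowerSeries.map g (pser p c) = pser p fun k => g (c k) := by
  ext N
  simp only [pser, PowerSeries.coeff_map, PowerSeries.coeff_mk]
  split_ifs <;> simp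

theorem coeff_subst_pser {p : ℕ} (hp : 1 < p) {τ K : Type*} [CommRing K] (c : ℕ → K)
    {h : MvPowerSeries τ K} (h0 : h.constantCoeff = 0) (m : τ →₀ ℕ) {D : ℕ} (hD : m.degree ≤ D) :
    MvPowerSeries.coeff m (PowerSeries.subst h (pser p c)) =
      ∑ k ∈ range (D + 1), c k * (h ^ (p ^ k)).coeff m := by
  rw [PowerSeries.coeff_subst (PowerSeries.HasSubst.of_constantCoeff_zero h0),
    finsum_eq_sum_of_support_subset _ (s := (range (D + 1)).image fun k => p ^ k) ?_]
  · rw [sum_image fun a _ b _ hab => Nat.pow_right_injective hp hab]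
    refine sum_congr rfl fun k _ => ?_
    simp [pser, Nat.log_pow hp k]
  · intro N hN
    simp only [Function.mem_support, pser, PowerSeries.coeff_mk, smul_eq_mul] at hN
    simp only [coe_image, Set.mem_image, Finset.mem_coe, mem_range]
    by_cases hpow : N = p ^ Nat.log p N
    · refine ⟨Nat.log p N, ?_, hpow.symm⟩
      by_contra hlt
      push Not at hlt
      refine hN ?_
      rw [coeff_pow_eq_zero_of_degree_lt h0, mul_zero]
      calc m.degree ≤ D := hD
        _ < p ^ D := Nat.lt_pow_self hp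
        _ ≤ p ^ Nat.log p N := Nat.pow_le_pow_right (by omega) (by omega)
        _ = N := hpow.symm
    · exact absurd (by rw [if_neg hpow, zero_mul]) hN

/-- The data of the functional equation. -/
structure Data (p : ℕ) (B K : Type*) [CommRing B] [CommRing K] where
  ι : B →+* K
  inj : Function.Injective ι
  σ : B →+* B
  σK : K →+* K
  comm : ∀ b, σK (ι b) = ι (σ b)
  pinv : K
  pinv_mul : (p : K) * pinv = 1
  frob : ∀ b, (p : B) ∣ σ b - b ^ p
  w : ℕ → B
  w_pow : ∀ i, σ (w i) = w i ^ p
  M : ℕ → K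
  M_zero : M 0 = 1
  M_succ : ∀ k, (p : K) * M (k + 1) =
    ∑ j ∈ range (k + 1), M j * ι (w (k + 1 - j)) ^ (p ^ j)

variable {p : ℕ} {B K : Type*} [CommRing B] [CommRing K]

/-- The iterates of the Frobenius lift on `B`. -/
def Data.sB (D : Data p B K) : ℕ → (B →+* B)
  | 0 => RingHom.id B
  | a + 1 => D.σ.comp (D.sB a)

/-- The iterates of the Frobenius lift on `K`. -/
def Data.sK (D : Data p B K) : ℕ → (K →+* K)
  | 0 => RingHom.id K
  | a + 1 => D.σK.comp (D.sK a)

variable (D : Data p B K)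

theorem Data.sK_ι (a : ℕ) (b : B) : D.sK a (D.ι b) = D.ι (D.sB a b) := by
  induction a with
  | zero => rfl
  | succ a ih => simp [Data.sK, Data.sB, ih, D.comm]

theorem Data.sK_add (a b : ℕ) (x : K) : D.sK (a + b) x = D.sK a (D.sK b x) := by
  induction a with
  | zero => simp [Data.sK]
  | succ a ih => rw [Nat.succ_add]; simp [Data.sK, ih]

theorem Data.sK_w (a i : ℕ) : D.sK a (D.ι (D.w i)) = D.ι (D.w i) ^ (p ^ a) := by
  induction a with
  | zero => simp [Data.sK]
  | succ a ih =>
    simp only [Data.sK, RingHom.comp_apply, ih, map_pow, D.comm, D.w_pow, ← pow_mul, pow_succ']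

theorem Data.isUnit_p (D : Data p B K) : IsUnit (p : K) := isUnit_iff_exists_inv.2 ⟨_, D.pinv_mul⟩

theorem Data.cancel (D : Data p B K) {x y : K} (h : (p : K) * x = (p : K) * y) : x = y :=
  D.isUnit_p.mul_left_cancel h

/-- The coefficients satisfy the functional equation with the twists. -/
theorem Data.M_twist (k : ℕ) : (p : K) * D.M (k + 1) =
    ∑ j ∈ range (k + 1), D.ι (D.w (k + 1 - j)) * D.sK (k + 1 - j) (D.M j) := by
  induction k using Nat.strong_induction_on with
  | _ k ih =>
    refine D.cancel ?_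
    rw [D.M_succ, mul_sum, mul_sum, sum_range_succ', sum_range_succ']
    refine congrArg₂ (· + ·) ?_ (by simp [D.M_zero])
    have hl : ∀ j ∈ range k, (p : K) * (D.M (j + 1) * D.ι (D.w (k + 1 - (j + 1))) ^ p ^ (j + 1)) =
        ∑ l ∈ range (j + 1), D.ι (D.w (j + 1 - l)) * D.sK (j + 1 - l) (D.M l) *
          D.ι (D.w (k - j)) ^ p ^ (j + 1) := by
      intro j hj
      rw [← mul_assoc, ih j (mem_range.1 hj), sum_mul, Nat.succ_sub_succ]
    have hr : ∀ j ∈ range k, (p : K) * (D.ι (D.w (k + 1 - (j + 1))) *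
        D.sK (k + 1 - (j + 1)) (D.M (j + 1))) =
        ∑ i ∈ range (j + 1), D.ι (D.w (k - j)) * D.sK (k - j) (D.M i) *
          D.ι (D.w (j + 1 - i)) ^ p ^ (i + (k - j)) := by
      intro j _
      rw [Nat.succ_sub_succ, mul_left_comm, ← map_natCast (D.sK (k - j)) p, ← map_mul, D.M_succ,
        map_sum, mul_sum]
      refine sum_congr rfl fun i _ => ?_
      rw [map_mul, map_pow, D.sK_w, ← pow_mul, ← pow_add, Nat.add_comm (k - j) i, mul_assoc]
    rw [sum_congr rfl hl, sum_congr rfl hr, sum_sigma', sum_sigma']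
    refine sum_nbij' (fun z => ⟨k - 1 - (z.1 - z.2), z.2⟩) (fun z => ⟨k - 1 - (z.1 - z.2), z.2⟩)
      ?_ ?_ ?_ ?_ ?_
    · intro z hz
      simp only [coe_sigma, Set.mem_sigma_iff, Finset.mem_coe, mem_range, mem_sigma] at hz ⊢
      omega
    · intro z hz
      simp only [coe_sigma, Set.mem_sigma_iff, Finset.mem_coe, mem_range, mem_sigma] at hz ⊢
      omega
    · intro z hz
      simp only [coe_sigma, Set.mem_sigma_iff, Finset.mem_coe, mem_range, mem_sigma] at hz
      exact Sigma.ext (by dsimp only; omega) HEq.rfl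
    · intro z hz
      simp only [coe_sigma, Set.mem_sigma_iff, Finset.mem_coe, mem_range, mem_sigma] at hz
      exact Sigma.ext (by dsimp only; omega) HEq.rfl
    · intro z hz
      simp only [coe_sigma, Set.mem_sigma_iff, Finset.mem_coe, mem_range, mem_sigma] at hz
      simp only
      rw [show k - (k - 1 - (z.1 - z.2)) = z.1 + 1 - z.2 by omega,
        show k - 1 - (z.1 - z.2) + 1 - z.2 = k - z.1 by omega,
        show z.2 + (z.1 + 1 - z.2) = z.1 + 1 by omega]

theorem Data.M_eq (k : ℕ) : D.M (k + 1) = ∑ j ∈ range (k + 1),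
    D.pinv * (D.ι (D.w (k + 1 - j)) * D.sK (k + 1 - j) (D.M j)) := by
  refine D.cancel ?_
  rw [← mul_sum, ← mul_assoc, D.pinv_mul, one_mul, D.M_twist]

theorem Data.exists_M_int (k : ℕ) : ∃ b, D.ι b = (p : K) ^ k * D.M k := by
  induction k using Nat.strong_induction_on with
  | _ k ih =>
    cases k with
    | zero => exact ⟨1, by simp [D.M_zero]⟩
    | succ k =>
      rw [pow_succ, mul_assoc, D.M_succ, mul_sum]
      refine sum_induction _ (fun x => ∃ b, D.ι b = x) ?_ ⟨0, map_zero _⟩ fun j hj => ?_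
      · rintro _ _ ⟨a, rfl⟩ ⟨b, rfl⟩
        exact ⟨a + b, map_add _ _ _⟩
      · obtain ⟨b, hb⟩ := ih j (by have := mem_range.1 hj; omega)
        refine ⟨(p : B) ^ (k - j) * b * D.w (k + 1 - j) ^ p ^ j, ?_⟩
        have hk : (p : K) ^ k = (p : K) ^ (k - j) * (p : K) ^ j := by
          rw [← pow_add, Nat.sub_add_cancel (by have := mem_range.1 hj; omega)]
        simp only [map_mul, map_pow, map_natCast, hb]
        rw [hk]
        ring

/-- The series `f`. -/
def Data.f : PowerSeries K := pser p D.M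

/-- The twisted series `(σ ^ a g) (X ^ (p ^ a))`. -/
def Data.twist {τ : Type*} (hp : 1 < p) (a : ℕ) (g : MvPowerSeries τ K) : MvPowerSeries τ K :=
  MvPowerSeries.expand (p ^ a) (pow_ne_zero a (by omega)) (MvPowerSeries.map (D.sK a) g)

/-- The coefficient of `L g`. -/
def Data.L {τ : Type*} (hp : 1 < p) (g : MvPowerSeries τ K) (m : τ →₀ ℕ) : K :=
  g.coeff m - ∑ a ∈ Icc 1 m.degree, D.pinv * D.ι (D.w a) * (D.twist hp a g).coeff m

theorem Data.L_add {τ : Type*} (hp : 1 < p) (g g' : MvPowerSeries τ K) (m : τ →₀ ℕ) :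
    D.L hp (g + g') m = D.L hp g m + D.L hp g' m := by
  simp only [Data.L, Data.twist, map_add, mul_add, sum_add_distrib]
  ring

theorem Data.twist_subst {τ : Type*} (hp : 1 < p) (a : ℕ) {h : MvPowerSeries τ K}
    (h0 : h.constantCoeff = 0) :
    D.twist hp a (PowerSeries.subst h D.f) =
      PowerSeries.subst (D.twist hp a h) (pser p fun k => D.sK a (D.M k)) := by
  have hs : PowerSeries.HasSubst h := PowerSeries.HasSubst.of_constantCoeff_zero h0
  have hs' : PowerSeries.HasSubst (MvPowerSeries.map (D.sK a) h) :=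
    PowerSeries.HasSubst.of_constantCoeff_zero (by
      rw [← MvPowerSeries.coeff_zero_eq_constantCoeff_apply, MvPowerSeries.coeff_map,
        MvPowerSeries.coeff_zero_eq_constantCoeff_apply, h0, map_zero])
  rw [Data.twist, PowerSeries.map_subst hs, Data.f, map_pser, PowerSeries.subst_def,
    MvPowerSeries.expand_subst _ _ hs'.const]
  rfl

theorem Data.twist_agree {τ : Type*} (hp : 1 < p) {a d : ℕ} (ha : 1 ≤ a)
    {h h' : MvPowerSeries τ K} (hh : ∀ m : τ →₀ ℕ, m.degree < d → h.coeff m = h'.coeff m)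
    (h0 : h.constantCoeff = h'.constantCoeff) :
    AgreeUpTo d (D.twist hp a h) (D.twist hp a h') := by
  intro m hm
  by_cases hd : ∀ i, p ^ a ∣ m i
  · obtain ⟨m', rfl⟩ : ∃ m', m = p ^ a • m' :=
      ⟨m.mapRange (fun x => x / p ^ a) (Nat.zero_div _), by
        ext i
        simpa using (Nat.mul_div_cancel' (hd i)).symm⟩
    simp only [Data.twist, MvPowerSeries.coeff_expand_smul, MvPowerSeries.coeff_map]
    by_cases hm0 : m' = 0
    · subst hm0
      simp only [MvPowerSeries.coeff_zero_eq_constantCoeff_apply, h0]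
    · refine congrArg _ (hh m' ?_)
      have hpos : 0 < m'.degree := by
        rcases Nat.eq_zero_or_pos m'.degree with hz | hz
        · exact absurd ((Finsupp.degree_eq_zero_iff m').1 hz) hm0
        · exact hz
      have h2 : 2 ≤ p ^ a := le_trans hp (Nat.le_self_pow (by omega) p)
      rw [map_nsmul, smul_eq_mul] at hm
      calc m'.degree < 2 * m'.degree := by omega
        _ ≤ p ^ a * m'.degree := Nat.mul_le_mul_right _ h2
        _ ≤ d := hm
  · push Not at hd
    obtain ⟨i, hi⟩ := hd
    simp [Data.twist, MvPowerSeries.coeff_expand_of_not_dvd _ _ _ hi]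

/-- The congruence of Frobenius twists and powers on series over `B`. -/
theorem Data.dvd_pow_sub_twist {τ : Type*} [Fact p.Prime] (hp : 1 < p)
    [CharP (B ⧸ Ideal.span {(p : B)}) p] (a : ℕ) (h : MvPowerSeries τ B) :
    (p : MvPowerSeries τ B) ∣ h ^ p ^ a -
      MvPowerSeries.expand (p ^ a) (pow_ne_zero a (by omega)) (MvPowerSeries.map (D.sB a) h) := by
  let q := Ideal.Quotient.mk (Ideal.span {(p : B)})
  have hσ : ∀ x, q (D.σ x) = q x ^ p := fun x => by
    rw [← map_pow, Ideal.Quotient.eq, Ideal.mem_span_singleton]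
    exact D.frob x
  have hcomp : q.comp (D.sB a) = (iterateFrobenius _ p a).comp q := by
    refine RingHom.ext fun x => ?_
    induction a with
    | zero => simp [Data.sB, iterateFrobenius_def]
    | succ a ih =>
      simp only [RingHom.comp_apply, iterateFrobenius_def] at ih ⊢
      simp only [Data.sB, RingHom.comp_apply]
      rw [hσ, ih, ← pow_mul, pow_succ]
  have hp0 : p ≠ 0 := by omega
  have hzero : MvPowerSeries.map q (h ^ p ^ a -
      MvPowerSeries.expand (p ^ a) (pow_ne_zero a hp0) (MvPowerSeries.map (D.sB a) h)) = 0 := by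
    rw [map_sub, map_pow, MvPowerSeries.map_expand, sub_eq_zero,
      ← MvPowerSeries.map_iterateFrobenius_expand p hp0 (MvPowerSeries.map q h) a,
      MvPowerSeries.map_expand]
    refine congrArg _ ?_
    ext m
    simp only [MvPowerSeries.coeff_map]
    exact (RingHom.congr_fun hcomp _).symm
  have hd : ∀ m, ∃ b, (h ^ p ^ a - MvPowerSeries.expand (p ^ a) (pow_ne_zero a hp0)
      (MvPowerSeries.map (D.sB a) h)).coeff m = (p : B) * b := by
    intro m
    have := congrArg (MvPowerSeries.coeff m) hzero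
    rw [MvPowerSeries.coeff_map, map_zero, Ideal.Quotient.eq_zero_iff_mem,
      Ideal.mem_span_singleton] at this
    exact this
  choose b hb using hd
  let bs : MvPowerSeries τ B := fun m => b m
  refine ⟨bs, ?_⟩
  ext m
  rw [hb m, ← map_natCast (MvPowerSeries.C (σ := τ) (R := B)) p, MvPowerSeries.coeff_C_mul]
  rfl

/-- The key identity: above the known degrees, `L (f ∘ h)` differs from `h` by integers. -/
theorem Data.coeff_congr {τ : Type*} [Fact p.Prime] (hp : 1 < p)
    [CharP (B ⧸ Ideal.span {(p : B)}) p] {h : MvPowerSeries τ K} (h0 : h.constantCoeff = 0)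
    (m : τ →₀ ℕ) (hint : ∀ m' : τ →₀ ℕ, m'.degree < m.degree → ∃ b, D.ι b = h.coeff m') :
    ∃ b, D.ι b = D.L hp (PowerSeries.subst h D.f) m - h.coeff m := by
  classical
  set d := m.degree with hd
  let hB : MvPowerSeries τ B := fun m' =>
    if hm' : m'.degree < d then (hint m' hm').choose else 0
  let h' : MvPowerSeries τ K := MvPowerSeries.map D.ι hB
  have hlow : ∀ m' : τ →₀ ℕ, m'.degree < d → h.coeff m' = h'.coeff m' := fun m' hm' => by
    simp only [h', MvPowerSeries.coeff_map]
    show _ = D.ι (hB m')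
    simp only [hB, dif_pos hm']
    exact ((hint m' hm').choose_spec).symm
  have h'0 : h'.constantCoeff = 0 := by
    by_cases hz : 0 < d
    · rw [← MvPowerSeries.coeff_zero_eq_constantCoeff_apply, ← hlow 0 (by simpa using hz),
        MvPowerSeries.coeff_zero_eq_constantCoeff_apply, h0]
    · rw [← MvPowerSeries.coeff_zero_eq_constantCoeff_apply]
      simp only [h', MvPowerSeries.coeff_map]
      show D.ι (hB 0) = 0
      simp [hB, hz]
  -- the powers above the first
  have hpow : ∀ N, 2 ≤ N → (h ^ N).coeff m = (h' ^ N).coeff m := by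
    intro N hN
    by_cases hz : d = 0
    · rw [coeff_pow_eq_zero_of_degree_lt h0 (by omega),
        coeff_pow_eq_zero_of_degree_lt h'0 (by omega)]
    have hord : ((d : ℕ) : ℕ∞) ≤ (h - h').order :=
      MvPowerSeries.nat_le_order fun m' hm' => by rw [map_sub, hlow m' hm', sub_self]
    have hgeom : ((1 : ℕ) : ℕ∞) ≤ (∑ i ∈ range N, h ^ i * h' ^ (N - 1 - i)).order :=
      MvPowerSeries.nat_le_order fun m' hm' => by
        obtain rfl : m' = 0 := (Finsupp.degree_eq_zero_iff m').1 (by omega)
        rw [MvPowerSeries.coeff_zero_eq_constantCoeff_apply, map_sum]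
        refine sum_eq_zero fun i _ => ?_
        rw [map_mul, map_pow, map_pow, h0, h'0, ← pow_add, zero_pow]
        have := mem_range.1 ‹i ∈ range N›
        omega
    have hz' : (h ^ N - h' ^ N).coeff m = 0 := by
      rw [← geom_sum₂_mul h h' N]
      refine MvPowerSeries.coeff_of_lt_order (lt_of_lt_of_le ?_
        (le_trans (add_le_add hgeom hord) MvPowerSeries.le_order_mul))
      exact_mod_cast (show m.degree < 1 + d by omega)
    rwa [map_sub, sub_eq_zero] at hz'
  -- the twisted terms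
  have htw : ∀ a, 1 ≤ a → ∀ j, ((D.twist hp a h) ^ (p ^ j)).coeff m =
      ((D.twist hp a h') ^ (p ^ j)).coeff m := fun a ha j =>
    ((D.twist_agree hp ha hlow (h0.trans h'0.symm)).pow _) m le_rfl
  have htw0 : ∀ a j, d < a + j → ((D.twist hp a h') ^ (p ^ j)).coeff m = 0 := by
    intro a j haj
    have hid : D.twist hp a h' ^ p ^ j = MvPowerSeries.expand (p ^ a) (pow_ne_zero a (by omega))
        (MvPowerSeries.map (D.sK a) (h' ^ p ^ j)) := by
      simp only [Data.twist, map_pow]
    rw [hid]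
    by_cases hdv : ∀ i, p ^ a ∣ m i
    · obtain ⟨m', rfl⟩ : ∃ m', m = p ^ a • m' :=
        ⟨m.mapRange (fun x => x / p ^ a) (Nat.zero_div _), by
          ext i
          simpa using (Nat.mul_div_cancel' (hdv i)).symm⟩
      rw [MvPowerSeries.coeff_expand_smul, MvPowerSeries.coeff_map,
        coeff_pow_eq_zero_of_degree_lt h'0 ?_, map_zero]
      have h1 : p ^ a * m'.degree = d := by rw [hd, map_nsmul, smul_eq_mul]
      by_contra hge
      push Not at hge
      have h2 : p ^ (a + j) ≤ d := by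
        rw [pow_add, ← h1]; exact Nat.mul_le_mul_left _ hge
      have h3 := Nat.lt_pow_self (n := a + j) hp
      omega
    · push Not at hdv
      obtain ⟨i, hi⟩ := hdv
      rw [MvPowerSeries.coeff_expand_of_not_dvd _ _ _ hi]
  -- the expansion of both sides
  have hg : (MvPowerSeries.coeff m (PowerSeries.subst h D.f)) = h.coeff m +
      ∑ k ∈ range d, ∑ j ∈ range (k + 1), D.pinv * (D.ι (D.w (k + 1 - j)) *
        D.sK (k + 1 - j) (D.M j)) * (h' ^ p ^ (k + 1)).coeff m := by
    rw [Data.f, coeff_subst_pser hp D.M h0 m le_rfl, sum_range_succ', D.M_zero, pow_zero, pow_one,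
      one_mul, add_comm]
    refine congrArg (h.coeff m + ·) (sum_congr rfl fun k _ => ?_)
    rw [D.M_eq, sum_mul, hpow _ (le_trans hp (Nat.le_self_pow (by omega) p))]
  have hL : ∑ a ∈ Icc 1 d, D.pinv * D.ι (D.w a) *
      (D.twist hp a (PowerSeries.subst h D.f)).coeff m =
      ∑ k ∈ range d, ∑ j ∈ range (k + 1), D.pinv * (D.ι (D.w (k + 1 - j)) *
        D.sK (k + 1 - j) (D.M j)) * ((D.twist hp (k + 1 - j) h') ^ p ^ j).coeff m := by
    have step : ∀ a ∈ Icc 1 d, D.pinv * D.ι (D.w a) *
        (D.twist hp a (PowerSeries.subst h D.f)).coeff m =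
        ∑ j ∈ range (d + 1 - a), D.pinv * (D.ι (D.w a) * D.sK a (D.M j)) *
          ((D.twist hp a h') ^ p ^ j).coeff m := by
      intro a ha
      have ha' := mem_Icc.1 ha
      have hc : (D.twist hp a h).constantCoeff = 0 := by
        rw [Data.twist, MvPowerSeries.constantCoeff_expand,
          ← MvPowerSeries.coeff_zero_eq_constantCoeff_apply, MvPowerSeries.coeff_map,
          MvPowerSeries.coeff_zero_eq_constantCoeff_apply, h0, map_zero]
      rw [D.twist_subst hp a h0, coeff_subst_pser hp _ hc m le_rfl, mul_sum,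
        ← sum_subset (s₁ := range (d + 1 - a)) (range_subset_range.2 (by omega)) fun j _ hj => ?_]
      · refine sum_congr rfl fun j _ => ?_
        rw [htw a ha'.1 j]
        ring
      · rw [mem_range] at hj
        rw [htw a ha'.1 j, htw0 a j (by omega)]
        ring
    rw [sum_congr rfl step, sum_sigma', sum_sigma']
    refine sum_nbij' (fun z => ⟨z.1 + z.2 - 1, z.2⟩) (fun z => ⟨z.1 + 1 - z.2, z.2⟩) ?_ ?_ ?_ ?_ ?_
    · intro z hz
      simp only [coe_sigma, Set.mem_sigma_iff, Finset.mem_coe, mem_range, mem_sigma, mem_Icc] at hz ⊢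
      omega
    · intro z hz
      simp only [coe_sigma, Set.mem_sigma_iff, Finset.mem_coe, mem_range, mem_sigma, mem_Icc] at hz ⊢
      omega
    · intro z hz
      simp only [coe_sigma, Set.mem_sigma_iff, Finset.mem_coe, mem_range, mem_sigma, mem_Icc] at hz
      exact Sigma.ext (by dsimp only; omega) HEq.rfl
    · intro z hz
      simp only [coe_sigma, Set.mem_sigma_iff, Finset.mem_coe, mem_range, mem_sigma, mem_Icc] at hz
      exact Sigma.ext (by dsimp only; omega) HEq.rfl
    · intro z hz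
      simp only [coe_sigma, Set.mem_sigma_iff, Finset.mem_coe, mem_range, mem_sigma, mem_Icc] at hz
      simp only
      rw [show z.1 + z.2 - 1 + 1 - z.2 = z.1 by omega]
  rw [Data.L, hg, hL, add_sub_assoc, add_sub_cancel_left, ← sum_sub_distrib]
  refine sum_induction _ (fun x => ∃ b, D.ι b = x) ?_ ⟨0, map_zero _⟩ fun k _ => ?_
  · rintro _ _ ⟨a, rfl⟩ ⟨b, rfl⟩
    exact ⟨a + b, map_add _ _ _⟩
  rw [← sum_sub_distrib]
  refine sum_induction _ (fun x => ∃ b, D.ι b = x) ?_ ⟨0, map_zero _⟩ fun j hj => ?_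
  · rintro _ _ ⟨a, rfl⟩ ⟨b, rfl⟩
    exact ⟨a + b, map_add _ _ _⟩
  rw [← mul_sub, ← map_sub]
  set a := k + 1 - j with ha
  have hk : k + 1 = a + j := by have := mem_range.1 hj; omega
  rw [hk, pow_add, pow_mul]
  obtain ⟨t, ht⟩ := dvd_sub_pow_of_dvd_sub (D.dvd_pow_sub_twist hp a hB) j
  have hmap : (h' ^ p ^ a) ^ p ^ j - (D.twist hp a h') ^ p ^ j =
      MvPowerSeries.C ((p : K) ^ (j + 1)) * MvPowerSeries.map D.ι t := by
    have := congrArg (MvPowerSeries.map D.ι) ht
    simp only [map_sub, map_pow, map_mul, map_natCast, MvPowerSeries.map_expand] at this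
    rw [map_pow, map_natCast]
    refine Eq.trans ?_ this
    refine congrArg (fun z => (h' ^ p ^ a) ^ p ^ j - z ^ p ^ j) ?_
    rw [Data.twist]
    refine congrArg _ ?_
    ext m'
    simp [h', D.sK_ι]
  rw [hmap, MvPowerSeries.coeff_C_mul, MvPowerSeries.coeff_map]
  obtain ⟨b, hb⟩ := D.exists_M_int j
  have hb' : D.ι (D.sB a b) = (p : K) ^ j * D.sK a (D.M j) := by
    rw [← D.sK_ι, hb, map_mul, map_pow, map_natCast]
  refine ⟨D.w a * D.sB a b * t.coeff m, ?_⟩
  rw [map_mul, map_mul, hb', pow_succ]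
  linear_combination (-(D.ι (D.w a) * D.sK a (D.M j) * (p : K) ^ j * D.ι (t.coeff m))) * D.pinv_mul

/-- If `L (f ∘ h)` is integral then `h` is integral. -/
theorem Data.int_of_L {τ : Type*} [Fact p.Prime] (hp : 1 < p)
    [CharP (B ⧸ Ideal.span {(p : B)}) p] {h : MvPowerSeries τ K} (h0 : h.constantCoeff = 0)
    (hL : ∀ m, ∃ b, D.ι b = D.L hp (PowerSeries.subst h D.f) m) :
    ∃ hB : MvPowerSeries τ B, MvPowerSeries.map D.ι hB = h := by
  have key : ∀ d, ∀ m : τ →₀ ℕ, m.degree = d → ∃ b, D.ι b = h.coeff m := by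
    intro d
    induction d using Nat.strong_induction_on with
    | _ d ih =>
      intro m hm
      obtain ⟨b, hb⟩ := D.coeff_congr hp h0 m fun m' hm' => ih _ (hm ▸ hm') m' rfl
      obtain ⟨c, hc⟩ := hL m
      exact ⟨c - b, by rw [map_sub, hb, hc, sub_sub_cancel]⟩
  choose b hb using fun m => key _ m rfl
  let bs : MvPowerSeries τ B := fun m => b m
  exact ⟨bs, MvPowerSeries.ext fun m => by rw [MvPowerSeries.coeff_map]; exact hb m⟩

/-- If `h` is integral then `L (f ∘ h)` is integral. -/
theorem Data.L_of_int {τ : Type*} [Fact p.Prime] (hp : 1 < p)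
    [CharP (B ⧸ Ideal.span {(p : B)}) p] {hB : MvPowerSeries τ B} (h0 : hB.constantCoeff = 0)
    (m : τ →₀ ℕ) :
    ∃ b, D.ι b = D.L hp (PowerSeries.subst (MvPowerSeries.map D.ι hB) D.f) m := by
  have h0' : (MvPowerSeries.map D.ι hB).constantCoeff = 0 := by
    rw [← MvPowerSeries.coeff_zero_eq_constantCoeff_apply, MvPowerSeries.coeff_map,
      MvPowerSeries.coeff_zero_eq_constantCoeff_apply, h0, map_zero]
  obtain ⟨b, hb⟩ := D.coeff_congr hp h0' m fun m' _ => ⟨hB.coeff m', by
    rw [MvPowerSeries.coeff_map]⟩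
  exact ⟨b + hB.coeff m, by rw [map_add, hb, MvPowerSeries.coeff_map, sub_add_cancel]⟩

end Vale.Agent.P217.FE
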