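import Vale.Agent.P217.A.FE

/-!
# P217, block A: the formal group of a functional equation logarithm
-/

noncomputable section

namespace Vale.Agent.P217.FE

open Finset

variable {K : Type*} [CommRing K] {τ υ : Type*}

/-- The logarithm of a law turns the law into addition. -/
theorem log_add {f : PowerSeries K} {F : MvPowerSeries (Fin 2) K} (hF0 : F.constantCoeff = 0)
    (hF : PowerSeries.subst F f = PowerSeries.subst (MvPowerSeries.X 0 : MvPowerSeries (Fin 2) K) f +
      PowerSeries.subst (MvPowerSeries.X 1 : MvPowerSeries (Fin 2) K) f)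
    {u v : MvPowerSeries υ K} (hu : u.constantCoeff = 0) (hv : v.constantCoeff = 0) :
    PowerSeries.subst (MvPowerSeries.subst ![u, v] F) f =
      PowerSeries.subst u f + PowerSeries.subst v f := by
  have hw : MvPowerSeries.HasSubst ![u, v] :=
    MvPowerSeries.hasSubst_of_constantCoeff_zero fun i => by fin_cases i <;> simp [hu, hv]
  have hF' : PowerSeries.HasSubst F := PowerSeries.HasSubst.of_constantCoeff_zero hF0
  have hX : ∀ i : Fin 2, PowerSeries.HasSubst (MvPowerSeries.X i : MvPowerSeries (Fin 2) K) :=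
    fun i => PowerSeries.HasSubst.of_constantCoeff_zero (MvPowerSeries.constantCoeff_X i)
  have e1 : ∀ (z : MvPowerSeries (Fin 2) K), PowerSeries.HasSubst z →
      MvPowerSeries.subst ![u, v] (PowerSeries.subst z f) =
        PowerSeries.subst (MvPowerSeries.subst ![u, v] z) f := fun z hz => by
    rw [PowerSeries.subst_def, MvPowerSeries.subst_comp_subst_apply hz.const hw]
    rfl
  rw [← e1 F hF', hF, MvPowerSeries.subst_add hw, e1 _ (hX 0), e1 _ (hX 1),
    MvPowerSeries.subst_X hw, MvPowerSeries.subst_X hw]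
  rfl

/-- A series with invertible linear coefficient is injective under composition. -/
theorem subst_injective {f : PowerSeries K} (hf0 : PowerSeries.constantCoeff f = 0)
    (hf1 : IsUnit (PowerSeries.coeff 1 f)) {a b : MvPowerSeries τ K} (ha : a.constantCoeff = 0)
    (hb : b.constantCoeff = 0) (h : PowerSeries.subst a f = PowerSeries.subst b f) : a = b := by
  have key : ∀ z : MvPowerSeries τ K, z.constantCoeff = 0 →
      PowerSeries.subst (PowerSeries.subst z f) (f.substInvOfIsUnit hf1) = z := fun z hz => by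
    have hz' := PowerSeries.HasSubst.of_constantCoeff_zero hz
    rw [← PowerSeries.subst_comp_subst_apply (PowerSeries.HasSubst.of_constantCoeff_zero' hf0) hz',
      PowerSeries.subst_substInvOfIsUnit_left _ hf0, PowerSeries.subst_X hz']
  rw [← key a ha, h, key b hb]

variable {p : ℕ} {B : Type*} [CommRing B] (D : Data p B K)

theorem Data.constantCoeff_f : PowerSeries.constantCoeff D.f = 0 := by
  rw [← PowerSeries.coeff_zero_eq_constantCoeff_apply]
  simp [Data.f, pser]

theorem Data.coeff_one_f (hp : 1 < p) : PowerSeries.coeff 1 D.f = 1 := by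
  simp [Data.f, pser, D.M_zero]

theorem Data.coeff_linear (hp : 1 < p) {h : MvPowerSeries τ K} (h0 : h.constantCoeff = 0)
    {m : τ →₀ ℕ} (hm : m.degree = 1) :
    MvPowerSeries.coeff m (PowerSeries.subst h D.f) = h.coeff m := by
  rw [Data.f, coeff_subst_pser hp D.M h0 m (D := 1) hm.le, sum_range_succ, sum_range_one,
    D.M_zero, pow_zero, pow_one, one_mul, pow_one,
    coeff_pow_eq_zero_of_degree_lt h0 (hm ▸ hp), mul_zero, add_zero]

/-- The law with logarithm `f` is defined over `B`. -/
theorem Data.exists_formalGroup [Fact p.Prime] (hp : 1 < p)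
    [CharP (B ⧸ Ideal.span {(p : B)}) p] :
    ∃ G : FormalGroup B, PowerSeries.subst (G.map D.ι).toPowerSeries D.f =
      PowerSeries.subst (MvPowerSeries.X 0 : MvPowerSeries (Fin 2) K) D.f +
        PowerSeries.subst (MvPowerSeries.X 1 : MvPowerSeries (Fin 2) K) D.f := by
  have hf0 := D.constantCoeff_f
  have hf1 : IsUnit (PowerSeries.coeff 1 D.f) := D.coeff_one_f hp ▸ isUnit_one
  set g : MvPowerSeries (Fin 2) K := PowerSeries.subst (MvPowerSeries.X 0) D.f +
    PowerSeries.subst (MvPowerSeries.X 1) D.f with hg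
  have hg0 : g.constantCoeff = 0 := by
    rw [hg, map_add, PowerSeries.constantCoeff_subst_eq_zero (MvPowerSeries.constantCoeff_X 0) _ hf0,
      PowerSeries.constantCoeff_subst_eq_zero (MvPowerSeries.constantCoeff_X 1) _ hf0, add_zero]
  have hgs := PowerSeries.HasSubst.of_constantCoeff_zero hg0
  set h : MvPowerSeries (Fin 2) K := PowerSeries.subst g (D.f.substInvOfIsUnit hf1) with hh
  have h0 : h.constantCoeff = 0 := PowerSeries.constantCoeff_subst_eq_zero hg0 _
    (PowerSeries.constantCoeff_substInvOfIsUnit _ hf1)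
  have hfh : PowerSeries.subst h D.f = g := by
    rw [hh, ← PowerSeries.subst_comp_subst_apply (PowerSeries.HasSubst.substInvOfIsUnit _ hf1) hgs,
      PowerSeries.subst_substInvOfIsUnit_right _ hf0, PowerSeries.subst_X hgs]
  obtain ⟨hB, hhB⟩ := D.int_of_L hp h0 fun m => by
    rw [hfh, hg, D.L_add]
    obtain ⟨a, ha⟩ := D.L_of_int hp (hB := MvPowerSeries.X (0 : Fin 2))
      (MvPowerSeries.constantCoeff_X 0) m
    obtain ⟨b, hb⟩ := D.L_of_int hp (hB := MvPowerSeries.X (1 : Fin 2))
      (MvPowerSeries.constantCoeff_X 1) m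
    rw [MvPowerSeries.map_X] at ha hb
    exact ⟨a + b, by rw [map_add, ha, hb]⟩
  have hB0 : hB.constantCoeff = 0 := D.inj (by
    rw [map_zero, ← h0, ← hhB, ← MvPowerSeries.coeff_zero_eq_constantCoeff_apply,
      ← MvPowerSeries.coeff_zero_eq_constantCoeff_apply, MvPowerSeries.coeff_map])
  have hlin : ∀ i : Fin 2, hB.coeff (Finsupp.single i 1) = 1 := fun i => D.inj (by
    have hd : (Finsupp.single i 1).degree = 1 := Finsupp.degree_single i 1
    rw [← MvPowerSeries.coeff_map, hhB, ← D.coeff_linear hp h0 hd, hfh, hg, map_add,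
      D.coeff_linear hp (MvPowerSeries.constantCoeff_X 0) hd,
      D.coeff_linear hp (MvPowerSeries.constantCoeff_X 1) hd, map_one]
    fin_cases i <;> simp [MvPowerSeries.coeff_index_single_X])
  let Y : Fin 3 → MvPowerSeries (Fin 3) B := MvPowerSeries.X
  have h1 := MvPowerSeries.HasSubst.cons_subst_zero_left (0 : Fin 3) 1 2 hB0
  have h2 := MvPowerSeries.HasSubst.cons_subst_zero_right (0 : Fin 3) 1 2 hB0
  have cz : ∀ i j : Fin 3, (MvPowerSeries.subst
      ![MvPowerSeries.X i, MvPowerSeries.X j] h : MvPowerSeries (Fin 3) K).constantCoeff = 0 :=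
    fun i j => MvPowerSeries.constantCoeff_subst_eq_zero MvPowerSeries.HasSubst.X_X
      (fun s => by fin_cases s <;> simp) h0
  let W : Fin 3 → MvPowerSeries (Fin 3) K := MvPowerSeries.X
  have hW : ∀ i, (W i).constantCoeff = 0 := MvPowerSeries.constantCoeff_X
  have hassoc : MvPowerSeries.subst ![MvPowerSeries.subst ![W 0, W 1] h, W 2] h =
      MvPowerSeries.subst ![W 0, MvPowerSeries.subst ![W 1, W 2] h] h := by
    refine subst_injective hf0 hf1 ?_ ?_ ?_
    · exact MvPowerSeries.constantCoeff_subst_eq_zero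
        (MvPowerSeries.hasSubst_of_constantCoeff_zero fun s => by
          fin_cases s
          · exact cz 0 1
          · exact hW 2)
        (fun s => by
          fin_cases s
          · exact cz 0 1
          · exact hW 2) h0
    · exact MvPowerSeries.constantCoeff_subst_eq_zero
        (MvPowerSeries.hasSubst_of_constantCoeff_zero fun s => by
          fin_cases s
          · exact hW 0
          · exact cz 1 2)
        (fun s => by
          fin_cases s
          · exact hW 0
          · exact cz 1 2) h0
    · rw [log_add h0 hfh (cz 0 1) (hW 2), log_add h0 hfh (hW 0) (hW 1),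
        log_add h0 hfh (hW 0) (cz 1 2), log_add h0 hfh (hW 1) (hW 2), add_assoc]
  have hmv : ∀ a b : MvPowerSeries (Fin 3) B,
      (fun i => MvPowerSeries.map D.ι (![a, b] i)) =
        ![MvPowerSeries.map D.ι a, MvPowerSeries.map D.ι b] := fun a b => by
    funext i; fin_cases i <;> rfl
  have hminj : Function.Injective (MvPowerSeries.map (σ := Fin 3) D.ι) := fun a b hab =>
    MvPowerSeries.ext fun m => D.inj (by
      rw [← MvPowerSeries.coeff_map, hab, MvPowerSeries.coeff_map])
  refine ⟨⟨hB, hB0, hlin 0, hlin 1, hminj ?_⟩, ?_⟩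
  · rw [MvPowerSeries.map_subst h1, MvPowerSeries.map_subst h2, hmv, hmv,
      MvPowerSeries.map_subst MvPowerSeries.HasSubst.X_X,
      MvPowerSeries.map_subst MvPowerSeries.HasSubst.X_X, hmv, hmv, MvPowerSeries.map_X,
      MvPowerSeries.map_X, MvPowerSeries.map_X, hhB]
    exact hassoc
  · show PowerSeries.subst (MvPowerSeries.map D.ι hB) D.f = _
    rw [hhB]
    exact hfh

end Vale.Agent.P217.FE
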