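import Vale.Agent.P217.A.Inst

/-!
# P217, block A: primality and invariance of the height ideals
-/

noncomputable section

namespace Vale.Agent.P217

open Finset

variable {p n : ℕ} [Fact p.Prime]

/-- Keep the monomials free of the variables in `S`. -/
def killFun (S : Finset (Fin (n - 1))) (a : E0 p n) : E0 p n :=
  fun m => if ∀ i ∈ S, m i = 0 then MvPowerSeries.coeff m a else 0

theorem coeff_killFun (S : Finset (Fin (n - 1))) (a : E0 p n) (m : Fin (n - 1) →₀ ℕ) :
    MvPowerSeries.coeff m (killFun S a) =
      if ∀ i ∈ S, m i = 0 then MvPowerSeries.coeff m a else 0 := rfl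

/-- Set to zero the variables in `S`. -/
def killVars (S : Finset (Fin (n - 1))) : E0 p n →+* E0 p n where
  toFun := killFun S
  map_one' := by
    ext1 m
    rw [coeff_killFun, MvPowerSeries.coeff_one]
    by_cases hm : m = 0
    · subst hm; simp
    · simp [hm]
  map_zero' := by
    ext1 m
    rw [coeff_killFun, map_zero, ite_self]
  map_add' a b := by
    ext1 m
    rw [map_add, coeff_killFun, coeff_killFun, coeff_killFun, map_add]
    split_ifs <;> simp
  map_mul' a b := by
    classical
    ext1 m
    rw [coeff_killFun, MvPowerSeries.coeff_mul, MvPowerSeries.coeff_mul]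
    simp only [coeff_killFun]
    split_ifs with hm
    · refine sum_congr rfl fun x hx => ?_
      have hx' := HasAntidiagonal.mem_antidiagonal.1 hx
      have hi : ∀ i ∈ S, x.1 i = 0 ∧ x.2 i = 0 := fun i hi => by
        have := hm i hi
        rw [← hx', Finsupp.add_apply] at this
        omega
      rw [if_pos fun i h => (hi i h).1, if_pos fun i h => (hi i h).2]
    · refine (sum_eq_zero fun x hx => ?_).symm
      have hx' := HasAntidiagonal.mem_antidiagonal.1 hx
      split_ifs with h1 h2
      · refine absurd (fun i hi => ?_) hm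
        rw [← hx', Finsupp.add_apply, h1 i hi, h2 i hi]
      all_goals simp

theorem coeff_killVars (S : Finset (Fin (n - 1))) (a : E0 p n) (m : Fin (n - 1) →₀ ℕ) :
    MvPowerSeries.coeff m (killVars S a) =
      if ∀ i ∈ S, m i = 0 then MvPowerSeries.coeff m a else 0 := rfl

theorem sub_killVars_mem (S : Finset (Fin (n - 1))) (a : E0 p n) :
    a - killVars S a ∈
      Ideal.span ((fun i => (MvPowerSeries.X i : E0 p n)) '' (S : Set (Fin (n - 1)))) := by
  classical
  induction S using Finset.induction with
  | empty =>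
    have : killVars (∅ : Finset (Fin (n - 1))) a = a := by
      ext1 m
      rw [coeff_killVars]
      simp
    simp [this]
  | @insert i S hi ih =>
    have hsub : killVars S a - killVars (insert i S) a ∈
        Ideal.span {(MvPowerSeries.X i : E0 p n)} := by
      rw [Ideal.mem_span_singleton, MvPowerSeries.X_dvd_iff]
      intro m hm
      rw [map_sub, coeff_killVars, coeff_killVars]
      simp only [forall_mem_insert, hm, true_and, sub_self]
    rw [coe_insert, Set.image_insert_eq, Ideal.span_insert]
    have h := Submodule.add_mem_sup hsub ih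
    rwa [show killVars S a - killVars (insert i S) a + (a - killVars S a) =
      a - killVars (insert i S) a by ring] at h

/-- The variables of index below `h`. -/
def lowVars (h : ℕ) : Finset (Fin (n - 1)) := univ.filter fun i => (i : ℕ) + 1 < h

/-- Set to zero the parameters below `h`. -/
def kill (h : ℕ) : E0 p n →+* E0 p n := killVars (lowVars h)

theorem kill_X (h : ℕ) (i : Fin (n - 1)) :
    kill (p := p) h (MvPowerSeries.X i) = if (i : ℕ) + 1 < h then 0 else MvPowerSeries.X i := by
  ext1 m
  rw [kill, coeff_killVars]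
  by_cases hi : (i : ℕ) + 1 < h
  · rw [if_pos hi, map_zero, MvPowerSeries.coeff_X]
    split_ifs with h1 h2
    · subst h2
      have := h1 i (by simp [lowVars, hi])
      simp at this
    all_goals rfl
  · rw [if_neg hi, MvPowerSeries.coeff_X]
    split_ifs with h1 h2 h3
    · rfl
    · rfl
    · refine absurd (fun j hj => ?_) h1
      subst h3
      have hj' : (j : ℕ) + 1 < h := by simpa [lowVars] using hj
      rw [Finsupp.single_eq_of_ne]
      intro hc
      subst hc
      omega
    · rfl

theorem kill_vv_low {h i : ℕ} (h1 : 1 ≤ i) (h2 : i < h) (h3 : h ≤ n) :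
    kill (p := p) h (vv p n i) = 0 := by
  rw [vv, dif_pos ⟨h1, by omega⟩, kill_X, if_pos]
  simp only
  omega

theorem kill_vv_self {h : ℕ} (h3 : h ≤ n) : kill (p := p) h (vv p n h) = vv p n h := by
  simp only [vv]
  split_ifs with h1
  · rw [kill_X, if_neg]
    simp only
    omega
  · exact map_one _
  · exact map_zero _

theorem span_low_le {h : ℕ} :
    Ideal.span ((fun i => (MvPowerSeries.X i : E0 p n)) ''
        ((lowVars (n := n) h : Finset (Fin (n - 1))) : Set (Fin (n - 1))))
      ≤ heightIdeal p n h := by
  rw [Ideal.span_le]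
  rintro _ ⟨i, hi, rfl⟩
  have hi' : (i : ℕ) + 1 < h := by simpa [lowVars] using hi
  rw [heightIdeal, if_neg (by omega)]
  refine Ideal.subset_span (Or.inr ⟨i + 1, by omega, hi', ?_⟩)
  rw [vv, dif_pos ⟨by omega, by have := i.isLt; omega⟩]
  rfl

theorem sub_kill_mem (h : ℕ) (a : E0 p n) : a - kill h a ∈ heightIdeal p n h :=
  span_low_le (sub_killVars_mem (lowVars h) a)

theorem natCast_mem_heightIdeal {h : ℕ} (hh : 1 ≤ h) : (p : E0 p n) ∈ heightIdeal p n h := by
  rw [heightIdeal, if_neg (by omega)]
  exact Ideal.subset_span (Set.mem_insert _ _)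

theorem heightIdeal_eq_ker {h : ℕ} (hh : 1 ≤ h) (hn : h ≤ n) :
    heightIdeal p n h = RingHom.ker ((red p n).comp (kill h)) := by
  refine le_antisymm ?_ fun a ha => ?_
  · rw [heightIdeal, if_neg (by omega), Ideal.span_le]
    rintro x (rfl | ⟨i, h1, h2, rfl⟩)
    · simp only [SetLike.mem_coe, RingHom.mem_ker, map_natCast]
      rw [← map_natCast (MvPowerSeries.C (σ := Fin (n - 1)) (R := GaloisField p n)) p,
        CharP.cast_eq_zero, map_zero]
    · simp [kill_vv_low h1 h2 hn]
  · rw [RingHom.mem_ker, RingHom.comp_apply] at ha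
    obtain ⟨b, hb⟩ := p_dvd_of_red_eq_zero p n ha
    rw [show a = (a - kill h a) + kill h a by ring, hb]
    refine Ideal.add_mem _ ?_ (Ideal.mul_mem_right b _ (natCast_mem_heightIdeal hh))
    rw [← hb]
    exact sub_kill_mem h a

theorem heightIdeal_isPrime {h : ℕ} (hn : h ≤ n) : (heightIdeal p n h).IsPrime := by
  rcases Nat.eq_zero_or_pos h with rfl | hh
  · haveI : IsDomain (E0 p n) := NoZeroDivisors.to_isDomain _
    rw [heightIdeal, if_pos rfl]
    exact Ideal.isPrime_bot
  · haveI : IsDomain (MvPowerSeries (Fin (n - 1)) (GaloisField p n)) :=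
      NoZeroDivisors.to_isDomain _
    rw [heightIdeal_eq_ker hh hn]
    exact RingHom.ker_isPrime _

/-- `kill` after inverting p. -/
def killInv (h : ℕ) : E0Inv p n →+* E0Inv p n :=
  IsLocalization.Away.lift (p : E0 p n) (g := (algebraMap (E0 p n) (E0Inv p n)).comp (kill h))
    (by
      rw [RingHom.comp_apply, map_natCast]
      exact IsLocalization.Away.algebraMap_isUnit (p : E0 p n))

theorem killInv_algebraMap (h : ℕ) (b : E0 p n) :
    killInv h (algebraMap _ (E0Inv p n) b) = algebraMap _ _ (kill h b) :=
  IsLocalization.Away.lift_eq _ _ b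

theorem killInv_logCoeff {h : ℕ} (hn : h ≤ n) :
    ∀ k, 1 ≤ k → k ≤ h → (p : E0Inv p n) * killInv h (logCoeff p n k) =
      if k = h then algebraMap _ _ (vv p n h) else 0 := by
  intro k
  induction k using Nat.strong_induction_on with
  | _ k ih =>
    intro h1 h2
    obtain ⟨j, rfl⟩ : ∃ j, k = j + 1 := ⟨k - 1, by omega⟩
    have hs := congrArg (killInv (p := p) (n := n) h) ((ltData p n).M_succ j)
    simp only [ltData, map_mul, map_natCast, map_sum, map_pow, killInv_algebraMap] at hs
    rw [hs, Finset.sum_range_succ', Finset.sum_eq_zero fun i hi => ?_]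
    · rw [zero_add, logCoeff.eq_1, map_one, one_mul, Nat.sub_zero, pow_zero, pow_one]
      split_ifs with he
      · rw [he, kill_vv_self hn]
      · rw [kill_vv_low (by omega) (by omega) hn, map_zero]
    · rw [mem_range] at hi
      have hz := ih (i + 1) (by omega) (by omega) (by omega)
      rw [if_neg (by omega)] at hz
      rw [(ltData p n).cancel (x := killInv h (logCoeff p n (i + 1))) (y := 0)
        (by rw [hz, mul_zero]), zero_mul]

/-- Multiplication by k in the law has logarithm k times the logarithm. -/
theorem log_nsmulSeries {F : FormalGroup (E0 p n)} (hF : IsUniversalDeformation p n F) (k : ℕ) :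
    PowerSeries.constantCoeff (nsmulSeries F k) = 0 ∧
      PowerSeries.subst (PowerSeries.map (algebraMap (E0 p n) (E0Inv p n)) (nsmulSeries F k))
        (logSeries p n) = (k : PowerSeries (E0Inv p n)) * logSeries p n := by
  induction k with
  | zero =>
    refine ⟨by simp [nsmulSeries, seriesSum], ?_⟩
    simp only [nsmulSeries, List.replicate_zero, seriesSum, map_zero, Nat.cast_zero, zero_mul]
    exact PowerSeries.subst_zero_of_constantCoeff_zero (ltData p n).constantCoeff_f
  | succ k ih =>
    obtain ⟨ih0, ih1⟩ := ih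
    set N := nsmulSeries F k with hN
    have hsucc : nsmulSeries F (k + 1) =
        MvPowerSeries.subst ![PowerSeries.X, N] F.toPowerSeries := rfl
    have hv : MvPowerSeries.HasSubst ![(PowerSeries.X : PowerSeries (E0 p n)), N] :=
      MvPowerSeries.hasSubst_of_constantCoeff_zero fun i => by
        fin_cases i
        · exact PowerSeries.constantCoeff_X
        · exact ih0
    refine ⟨?_, ?_⟩
    · rw [hsucc]
      exact MvPowerSeries.constantCoeff_subst_eq_zero hv (fun i => by
        fin_cases i
        · exact PowerSeries.constantCoeff_X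
        · exact ih0) F.zero_constantCoeff
    · rw [hsucc]
      have hmap : PowerSeries.map (algebraMap (E0 p n) (E0Inv p n))
          (MvPowerSeries.subst ![PowerSeries.X, N] F.toPowerSeries) =
          MvPowerSeries.subst ![PowerSeries.X, PowerSeries.map (algebraMap _ (E0Inv p n)) N]
            (F.map (algebraMap (E0 p n) (E0Inv p n))).toPowerSeries := by
        rw [PowerSeries.map, MvPowerSeries.map_subst hv]
        refine congrArg₂ _ (funext fun i => ?_) rfl
        fin_cases i
        · exact MvPowerSeries.map_X _ _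
        · rfl
      have hN0 : PowerSeries.constantCoeff
          (PowerSeries.map (algebraMap (E0 p n) (E0Inv p n)) N) = 0 := by
        rw [← PowerSeries.coeff_zero_eq_constantCoeff_apply, PowerSeries.coeff_map,
          PowerSeries.coeff_zero_eq_constantCoeff_apply, ih0, map_zero]
      rw [hmap, FE.log_add (F.map _).zero_constantCoeff hF PowerSeries.constantCoeff_X hN0,
        ih1, PowerSeries.X_subst, Nat.cast_succ]
      ring

theorem coeff_pow_self {K : Type*} [CommRing K] {P : PowerSeries K}
    (h0 : PowerSeries.constantCoeff P = 0) (N : ℕ) :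
    PowerSeries.coeff N (P ^ N) = PowerSeries.coeff 1 P ^ N := by
  obtain ⟨A, rfl⟩ := PowerSeries.X_dvd_iff.2 h0
  rw [mul_pow]
  have h := PowerSeries.coeff_X_pow_mul (A ^ N) N 0
  rw [zero_add] at h
  rw [h]
  simp

/-- The congruences of multiplication by p modulo the height ideal. -/
theorem nsmul_p_coeff {F : FormalGroup (E0 p n)} (hF : IsUniversalDeformation p n F) {h : ℕ}
    (hh : 1 ≤ h) (hn : h ≤ n) :
    (∀ N, N < p ^ h → PowerSeries.coeff N (nsmulSeries F p) ∈ heightIdeal p n h) ∧
      PowerSeries.coeff (p ^ h) (nsmulSeries F p) - vv p n h ∈ heightIdeal p n h := by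
  have hp : 1 < p := (Fact.out : p.Prime).one_lt
  obtain ⟨hP0, hlog⟩ := log_nsmulSeries hF p
  set P := nsmulSeries F p with hP
  set c : ℕ → E0Inv p n := fun k => killInv h (logCoeff p n k) with hc
  set Q : PowerSeries (E0Inv p n) :=
    PowerSeries.map (killInv h) (PowerSeries.map (algebraMap (E0 p n) (E0Inv p n)) P) with hQ
  have hQc : ∀ N, PowerSeries.coeff N Q = algebraMap _ _ (kill h (PowerSeries.coeff N P)) := by
    intro N
    rw [hQ, PowerSeries.coeff_map, PowerSeries.coeff_map, killInv_algebraMap]
  have hQ0 : PowerSeries.constantCoeff Q = 0 := by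
    rw [← PowerSeries.coeff_zero_eq_constantCoeff_apply, hQc,
      PowerSeries.coeff_zero_eq_constantCoeff_apply, hP0, map_zero, map_zero]
  have heq : PowerSeries.subst Q (FE.pser p c) = (p : PowerSeries (E0Inv p n)) * FE.pser p c := by
    have hs : PowerSeries.HasSubst (PowerSeries.map (algebraMap (E0 p n) (E0Inv p n)) P) :=
      PowerSeries.HasSubst.of_constantCoeff_zero' (by
        rw [← PowerSeries.coeff_zero_eq_constantCoeff_apply, PowerSeries.coeff_map,
          PowerSeries.coeff_zero_eq_constantCoeff_apply, hP0, map_zero])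
    have := congrArg (PowerSeries.map (killInv (p := p) (n := n) h)) hlog
    rw [map_mul, map_natCast, logSeries_eq, FE.Data.f, FE.map_pser] at this
    refine Eq.trans ?_ this
    rw [hQ]
    show _ = MvPowerSeries.map (killInv h) _
    rw [PowerSeries.map_subst hs, FE.map_pser]
    rfl
  have hc0 : c 0 = 1 := by simp [hc, logCoeff.eq_1]
  have hck : ∀ k, 1 ≤ k → k < h → c k = 0 := fun k h1 h2 => by
    refine (ltData p n).cancel ?_
    rw [mul_zero, killInv_logCoeff hn k h1 h2.le, if_neg h2.ne]
  have hexp : ∀ N, (p : E0Inv p n) * PowerSeries.coeff N (FE.pser p c) =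
      ∑ k ∈ range (N + 1), c k * PowerSeries.coeff N (Q ^ p ^ k) := by
    intro N
    have := congrArg (MvPowerSeries.coeff (Finsupp.single () N)) heq
    rw [FE.coeff_subst_pser hp c hQ0 _ (Finsupp.degree_single () N).le] at this
    rw [← map_natCast (MvPowerSeries.C (σ := Unit) (R := E0Inv p n)) p] at this
    exact ((this.trans (MvPowerSeries.coeff_C_mul _ _ _)).symm :)
  have hlow : ∀ k N, 1 ≤ k → (k < h ∨ N < p ^ k) → c k * PowerSeries.coeff N (Q ^ p ^ k) = 0 := by
    intro k N h1 h2
    rcases h2 with h2 | h2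
    · rw [hck k h1 h2, zero_mul]
    · have hz := FE.coeff_pow_eq_zero_of_degree_lt (h := Q) hQ0 (N := p ^ k)
        (m := Finsupp.single () N) (by rw [Finsupp.degree_single]; exact h2)
      exact mul_eq_zero_of_right _ hz
  have hsmall : ∀ N, 1 ≤ N → N < p ^ h →
      PowerSeries.coeff N Q = (p : E0Inv p n) * PowerSeries.coeff N (FE.pser p c) := by
    intro N h1 h2
    rw [hexp N, sum_range_succ', sum_eq_zero fun k hk => ?_]
    · rw [zero_add, hc0, one_mul, pow_zero, pow_one]
    · refine hlow (k + 1) N (by omega) ?_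
      by_cases hkh : k + 1 < h
      · exact Or.inl hkh
      · exact Or.inr (lt_of_lt_of_le h2 (Nat.pow_le_pow_right (by omega) (by omega)))
  refine ⟨fun N hN => ?_, ?_⟩
  · rcases Nat.eq_zero_or_pos N with rfl | hN1
    · rw [PowerSeries.coeff_zero_eq_constantCoeff_apply, hP0]
      exact Ideal.zero_mem _
    have hval : kill h (PowerSeries.coeff N P) = if N = 1 then (p : E0 p n) else 0 := by
      refine (ltData p n).inj ?_
      show algebraMap _ _ _ = algebraMap _ _ _
      rw [← hQc, hsmall N hN1 hN]
      simp only [FE.pser, PowerSeries.coeff_mk]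
      split_ifs with h1 h2 h2
      · subst h2; simp [hc0]
      · rw [hck _ ?_ ?_, mul_zero, map_zero]
        · by_contra hz
          exact h2 (by rw [h1]; simp [show Nat.log p N = 0 by omega])
        · by_contra hz
          have := Nat.pow_le_pow_right (n := p) (by omega) (not_lt.1 hz)
          omega
      · subst h2; simp at h1
      · simp
    rw [show PowerSeries.coeff N P =
      (PowerSeries.coeff N P - kill h (PowerSeries.coeff N P)) + kill h (PowerSeries.coeff N P)
        by ring]
    refine Ideal.add_mem _ (sub_kill_mem h _) ?_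
    rw [hval]
    split_ifs
    · exact natCast_mem_heightIdeal hh
    · exact Ideal.zero_mem _
  · have hQbig : 1 < p ^ h := Nat.one_lt_pow (by omega) hp
    have hQ1 : PowerSeries.coeff 1 Q = (p : E0Inv p n) := by
      rw [hsmall 1 le_rfl hQbig]
      simp [FE.pser, hc0]
    have htop := hexp (p ^ h)
    rw [sum_range_succ', sum_eq_single (h - 1)] at htop
    rotate_left
    · intro k _ hne
      refine hlow (k + 1) (p ^ h) (by omega) ?_
      by_cases hkh : k + 1 < h
      · exact Or.inl hkh
      · exact Or.inr (Nat.pow_lt_pow_right hp (by omega))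
    · intro hne
      exact absurd (mem_range.2 (by have := Nat.lt_pow_self (n := h) hp; omega)) hne
    rw [Nat.sub_add_cancel hh, hc0, one_mul, pow_zero, pow_one, coeff_pow_self hQ0, hQ1] at htop
    simp only [FE.pser, PowerSeries.coeff_mk, Nat.log_pow hp, if_true] at htop
    have hv : (p : E0Inv p n) * c h = algebraMap _ _ (vv p n h) := by
      simpa using killInv_logCoeff (p := p) hn h hh le_rfl
    obtain ⟨Q', hQ'⟩ : ∃ Q', p ^ h = Q' + 1 := ⟨p ^ h - 1, by omega⟩
    have hval : kill h (PowerSeries.coeff (p ^ h) P) =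
        vv p n h - (p : E0 p n) ^ Q' * vv p n h := by
      refine (ltData p n).inj ?_
      show algebraMap _ _ _ = algebraMap _ _ _
      rw [← hQc, map_sub, map_mul, map_pow, map_natCast, ← hv]
      rw [hQ', pow_succ] at htop
      rw [hQ']
      linear_combination -htop
    rw [show PowerSeries.coeff (p ^ h) P - vv p n h =
      (PowerSeries.coeff (p ^ h) P - kill h (PowerSeries.coeff (p ^ h) P)) +
        (kill h (PowerSeries.coeff (p ^ h) P) - vv p n h) by ring]
    refine Ideal.add_mem _ (sub_kill_mem h _) ?_
    rw [hval, show vv p n h - (p : E0 p n) ^ Q' * vv p n h - vv p n h =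
      -((p : E0 p n) ^ Q' * vv p n h) by ring, neg_mem_iff]
    refine Ideal.mul_mem_right _ _ (Ideal.pow_mem_of_mem _ (natCast_mem_heightIdeal hh) _ ?_)
    omega

/-- An isomorphism commutes with multiplication by k. -/
theorem hom_nsmul {R : Type} [CommRing R] {F G : FormalGroup R} {φ : PowerSeries R}
    (hφ0 : PowerSeries.constantCoeff φ = 0)
    (hφ : PowerSeries.subst F.toPowerSeries φ =
      MvPowerSeries.subst
        ![PowerSeries.subst (MvPowerSeries.X 0 : MvPowerSeries (Fin 2) R) φ,
          PowerSeries.subst (MvPowerSeries.X 1 : MvPowerSeries (Fin 2) R) φ]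
        G.toPowerSeries) (k : ℕ) :
    PowerSeries.constantCoeff (nsmulSeries F k) = 0 ∧
      PowerSeries.constantCoeff (nsmulSeries G k) = 0 ∧
      PowerSeries.subst (nsmulSeries F k) φ = PowerSeries.subst φ (nsmulSeries G k) := by
  induction k with
  | zero =>
    refine ⟨by simp [nsmulSeries, seriesSum], by simp [nsmulSeries, seriesSum], ?_⟩
    simp only [nsmulSeries, List.replicate_zero, seriesSum]
    rw [PowerSeries.subst_zero_of_constantCoeff_zero hφ0,
      ← PowerSeries.coe_substAlgHom (PowerSeries.HasSubst.of_constantCoeff_zero' hφ0), map_zero]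
  | succ k ih =>
    obtain ⟨hF0, hG0, hk⟩ := ih
    set NF := nsmulSeries F k with hNF
    set NG := nsmulSeries G k with hNG
    have hFs : nsmulSeries F (k + 1) =
        MvPowerSeries.subst ![PowerSeries.X, NF] F.toPowerSeries := rfl
    have hGs : nsmulSeries G (k + 1) =
        MvPowerSeries.subst ![PowerSeries.X, NG] G.toPowerSeries := rfl
    have hz : ∀ {N : PowerSeries R}, PowerSeries.constantCoeff N = 0 → ∀ i : Fin 2,
        (![(PowerSeries.X : PowerSeries R), N] i).constantCoeff = 0 := fun {N} hN i => by
      fin_cases i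
      · exact PowerSeries.constantCoeff_X
      · exact hN
    have hvF := MvPowerSeries.hasSubst_of_constantCoeff_zero (hz hF0)
    have hvG := MvPowerSeries.hasSubst_of_constantCoeff_zero (hz hG0)
    refine ⟨?_, ?_, ?_⟩
    · rw [hFs]; exact MvPowerSeries.constantCoeff_subst_eq_zero hvF (hz hF0) F.zero_constantCoeff
    · rw [hGs]; exact MvPowerSeries.constantCoeff_subst_eq_zero hvG (hz hG0) G.zero_constantCoeff
    have hXi : ∀ i : Fin 2, PowerSeries.HasSubst (MvPowerSeries.X i : MvPowerSeries (Fin 2) R) :=
      fun i => PowerSeries.HasSubst.of_constantCoeff_zero (MvPowerSeries.constantCoeff_X i)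
    have hφX : MvPowerSeries.HasSubst
        ![PowerSeries.subst (MvPowerSeries.X 0 : MvPowerSeries (Fin 2) R) φ,
          PowerSeries.subst (MvPowerSeries.X 1 : MvPowerSeries (Fin 2) R) φ] :=
      MvPowerSeries.hasSubst_of_constantCoeff_zero fun i => by
        fin_cases i
        · exact PowerSeries.constantCoeff_subst_eq_zero (MvPowerSeries.constantCoeff_X 0) _ hφ0
        · exact PowerSeries.constantCoeff_subst_eq_zero (MvPowerSeries.constantCoeff_X 1) _ hφ0
    have hFh : PowerSeries.HasSubst F.toPowerSeries :=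
      PowerSeries.HasSubst.of_constantCoeff_zero F.zero_constantCoeff
    have hφs : PowerSeries.HasSubst φ := PowerSeries.HasSubst.of_constantCoeff_zero' hφ0
    calc PowerSeries.subst (nsmulSeries F (k + 1)) φ
        = MvPowerSeries.subst ![PowerSeries.X, NF] (PowerSeries.subst F.toPowerSeries φ) := by
          rw [hFs, PowerSeries.subst_def, PowerSeries.subst_def,
            MvPowerSeries.subst_comp_subst_apply hFh.const hvF]
      _ = MvPowerSeries.subst ![φ, PowerSeries.subst φ NG] G.toPowerSeries := by
          rw [hφ, MvPowerSeries.subst_comp_subst_apply hφX hvF]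
          refine congrArg₂ _ (funext fun i => ?_) rfl
          fin_cases i
          · show MvPowerSeries.subst _ (PowerSeries.subst (MvPowerSeries.X 0) φ) = φ
            rw [PowerSeries.subst_def, MvPowerSeries.subst_comp_subst_apply (hXi 0).const hvF,
              MvPowerSeries.subst_X hvF]
            exact PowerSeries.X_subst φ
          · show MvPowerSeries.subst _ (PowerSeries.subst (MvPowerSeries.X 1) φ) = _
            rw [PowerSeries.subst_def, MvPowerSeries.subst_comp_subst_apply (hXi 1).const hvF,
              MvPowerSeries.subst_X hvF]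
            exact hk
      _ = PowerSeries.subst φ (nsmulSeries G (k + 1)) := by
          rw [hGs]
          show _ = MvPowerSeries.subst (fun _ => φ) (MvPowerSeries.subst _ _)
          rw [MvPowerSeries.subst_comp_subst_apply hvG hφs.const]
          refine congrArg₂ _ (funext fun i => ?_) rfl
          fin_cases i
          · exact (PowerSeries.subst_X hφs).symm
          · rfl

theorem map_nsmulSeries {R S : Type} [CommRing R] [CommRing S] (F : FormalGroup R) (g : R →+* S)
    (k : ℕ) : PowerSeries.constantCoeff (nsmulSeries F k) = 0 ∧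
      PowerSeries.map g (nsmulSeries F k) = nsmulSeries (F.map g) k := by
  induction k with
  | zero => exact ⟨by simp [nsmulSeries, seriesSum], map_zero _⟩
  | succ k ih =>
    have hz : ∀ i : Fin 2, (![(PowerSeries.X : PowerSeries R), nsmulSeries F k] i).constantCoeff = 0 :=
      fun i => by
        fin_cases i
        · exact PowerSeries.constantCoeff_X
        · exact ih.1
    have hv := MvPowerSeries.hasSubst_of_constantCoeff_zero hz
    refine ⟨MvPowerSeries.constantCoeff_subst_eq_zero hv hz F.zero_constantCoeff, ?_⟩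
    show MvPowerSeries.map g (MvPowerSeries.subst ![PowerSeries.X, nsmulSeries F k]
      F.toPowerSeries) = MvPowerSeries.subst ![PowerSeries.X, nsmulSeries (F.map g) k] _
    rw [MvPowerSeries.map_subst hv]
    refine congrArg₂ _ (funext fun i => ?_) rfl
    fin_cases i
    · exact MvPowerSeries.map_X _ _
    · exact ih.2

/-- One step of the invariance. -/
theorem symmetry_congr {F : FormalGroup (E0 p n)} (hF : IsUniversalDeformation p n F)
    {s : E0 p n ≃+* E0 p n} (hs : IsSymmetry F s) {h : ℕ} (hh : 1 ≤ h) (hn : h ≤ n)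
    (hI : (heightIdeal p n h).map s.toRingHom = heightIdeal p n h) :
    ∃ t : E0 p n, IsUnit t ∧ t * vv p n h - s (vv p n h) ∈ heightIdeal p n h := by
  obtain ⟨φ, hφ0, hφ1, hφ⟩ := hs
  obtain ⟨hlow, htop⟩ := nsmul_p_coeff hF hh hn
  obtain ⟨hP0, hG0, hcomm⟩ := hom_nsmul hφ0 hφ p
  rw [← (map_nsmulSeries F s.toRingHom p).2] at hG0 hcomm
  set I := heightIdeal p n h with hIdef
  set P := nsmulSeries F p with hP
  have hsI : ∀ a ∈ I, s a ∈ I := fun a ha => by
    rw [← hI]
    exact Ideal.mem_map_of_mem s.toRingHom ha
  let q := Ideal.Quotient.mk I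
  have hq : ∀ a ∈ I, q a = 0 := fun a ha => Ideal.Quotient.eq_zero_iff_mem.2 ha
  set Q := p ^ h with hQdef
  have hQ1 : 1 < Q := Nat.one_lt_pow (by omega) (Fact.out : p.Prime).one_lt
  have key := congrArg (fun z => q (PowerSeries.coeff Q z)) hcomm
  have hPs : PowerSeries.HasSubst P := PowerSeries.HasSubst.of_constantCoeff_zero' hP0
  have hφs : PowerSeries.HasSubst φ := PowerSeries.HasSubst.of_constantCoeff_zero' hφ0
  rw [PowerSeries.coeff_subst' hPs, PowerSeries.coeff_subst' hφs,
    finsum_eq_sum_of_support_subset _ (s := range (Q + 1)) ?_,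
    finsum_eq_sum_of_support_subset _ (s := range (Q + 1)) ?_, map_sum, map_sum] at key
  rotate_left
  · intro d hd
    simp only [Function.mem_support, coe_range, Set.mem_Iio, smul_eq_mul] at hd ⊢
    by_contra hlt
    refine hd (mul_eq_zero_of_right _ ?_)
    exact PowerSeries.coeff_of_lt_order _ (lt_of_lt_of_le (by exact_mod_cast (by omega : Q < d))
      (PowerSeries.le_order_pow_of_constantCoeff_eq_zero d hφ0))
  · intro d hd
    simp only [Function.mem_support, coe_range, Set.mem_Iio, smul_eq_mul] at hd ⊢
    by_contra hlt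
    refine hd (mul_eq_zero_of_right _ ?_)
    exact PowerSeries.coeff_of_lt_order _ (lt_of_lt_of_le (by exact_mod_cast (by omega : Q < d))
      (PowerSeries.le_order_pow_of_constantCoeff_eq_zero d hP0))
  rw [sum_eq_single 1, sum_eq_single Q] at key
  rotate_left
  · intro d hd hne
    rw [mem_range] at hd
    rw [smul_eq_mul, map_mul, PowerSeries.coeff_map]
    exact mul_eq_zero_of_left (hq _ (hsI _ (hlow d (by omega)))) _
  · intro hne
    exact absurd (mem_range.2 (Nat.lt_succ_self Q)) hne
  · intro d hd hne
    rcases Nat.eq_zero_or_pos d with rfl | hd1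
    · rw [smul_eq_mul, PowerSeries.coeff_zero_eq_constantCoeff_apply, hφ0, zero_mul, map_zero]
    · rw [smul_eq_mul, map_mul]
      refine mul_eq_zero_of_right _ ?_
      rw [← PowerSeries.coeff_map, map_pow]
      obtain ⟨A, hA⟩ : (PowerSeries.X : PowerSeries (E0 p n ⧸ I)) ^ Q ∣ PowerSeries.map q P :=
        PowerSeries.X_pow_dvd_iff.2 fun m hm => by
          rw [PowerSeries.coeff_map]; exact hq _ (hlow m hm)
      rw [hA, mul_pow, ← pow_mul, PowerSeries.coeff_X_pow_mul', if_neg]
      have : Q * 2 ≤ Q * d := Nat.mul_le_mul_left Q (by omega)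
      omega
  · intro hne
    exact absurd (mem_range.2 (by omega)) hne
  simp only [smul_eq_mul, pow_one, map_mul, PowerSeries.coeff_map, coeff_pow_self hφ0,
    map_pow, RingEquiv.toRingHom_eq_coe, RingHom.coe_coe] at key
  have e1 : q (PowerSeries.coeff Q P) = q (vv p n h) := Ideal.Quotient.eq.2 htop
  have e2 : q (s (PowerSeries.coeff Q P)) = q (s (vv p n h)) :=
    Ideal.Quotient.eq.2 (by rw [← map_sub]; exact hsI _ htop)
  rw [e1, e2] at key
  obtain ⟨u, hu⟩ := hφ1
  refine ⟨PowerSeries.coeff 1 φ * ((u⁻¹ : (E0 p n)ˣ) : E0 p n) ^ Q,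
    (hu ▸ u.isUnit).mul ((Units.isUnit u⁻¹).pow Q), Ideal.Quotient.eq.1 ?_⟩
  show q _ = q _
  rw [← hu] at key ⊢
  rw [map_mul, map_mul, map_pow,
    show q (u : E0 p n) * q ((u⁻¹ : (E0 p n)ˣ) : E0 p n) ^ Q * q (vv p n h) =
      (q (u : E0 p n) * q (vv p n h)) * q ((u⁻¹ : (E0 p n)ˣ) : E0 p n) ^ Q by ring,
    key, mul_assoc, ← mul_pow, ← map_mul, Units.mul_inv, map_one, one_pow, mul_one]

theorem heightIdeal_succ {h : ℕ} (hh : 1 ≤ h) :
    heightIdeal p n (h + 1) = heightIdeal p n h ⊔ Ideal.span {vv p n h} := by
  rw [heightIdeal, heightIdeal, if_neg (by omega), if_neg (by omega), ← Ideal.span_union]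
  refine congrArg _ (Set.ext fun x => ?_)
  simp only [Set.mem_union, Set.mem_insert_iff, Set.mem_setOf_eq, Set.mem_singleton_iff]
  constructor
  · rintro (rfl | ⟨i, h1, h2, rfl⟩)
    · exact Or.inl (Or.inl rfl)
    · rcases Nat.lt_succ_iff_lt_or_eq.1 h2 with h3 | rfl
      · exact Or.inl (Or.inr ⟨i, h1, h3, rfl⟩)
      · exact Or.inr rfl
  · rintro ((rfl | ⟨i, h1, h2, rfl⟩) | rfl)
    · exact Or.inl rfl
    · exact Or.inr ⟨i, h1, by omega, rfl⟩
    · exact Or.inr ⟨h, hh, Nat.lt_succ_self h, rfl⟩

theorem heightIdeal_invariant {F : FormalGroup (E0 p n)} (hF : IsUniversalDeformation p n F) :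
    ∀ h ≤ n, IsInvariantIdeal F (heightIdeal p n h) := by
  intro h
  induction h with
  | zero => intro _ s _; rw [heightIdeal, if_pos rfl, Ideal.map_bot]
  | succ h ih =>
    intro hn s hs
    rcases Nat.eq_zero_or_pos h with rfl | hh
    · have h1 : heightIdeal p n (0 + 1) = Ideal.span {(p : E0 p n)} := by
        rw [heightIdeal, if_neg (by omega)]
        refine congrArg _ (Set.ext fun x => ?_)
        simp only [Set.mem_insert_iff, Set.mem_setOf_eq, Set.mem_singleton_iff]
        refine ⟨?_, Or.inl⟩
        rintro (rfl | ⟨i, h1, h2, -⟩)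
        · rfl
        · omega
      rw [h1, Ideal.map_span, Set.image_singleton, map_natCast]
    · have hI := ih (by omega) s hs
      obtain ⟨t, ht, hmem⟩ := symmetry_congr hF hs hh (by omega) hI
      rw [heightIdeal_succ hh, Ideal.map_sup, hI, Ideal.map_span, Set.image_singleton]
      have hle : ∀ {a b : E0 p n}, a ∈ heightIdeal p n h ⊔ Ideal.span {b} →
          heightIdeal p n h ⊔ Ideal.span {a} ≤ heightIdeal p n h ⊔ Ideal.span {b} :=
        fun {a b} ha => sup_le le_sup_left (by rwa [Ideal.span_le, Set.singleton_subset_iff])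
      refine le_antisymm (hle ?_) (hle ?_)
      · rw [RingEquiv.toRingHom_eq_coe, RingHom.coe_coe,
          show s (vv p n h) = -(t * vv p n h - s (vv p n h)) + t * vv p n h by ring]
        exact Submodule.add_mem_sup (neg_mem hmem)
          (Ideal.mul_mem_left _ _ (Ideal.mem_span_singleton_self _))
      · obtain ⟨u, rfl⟩ := ht
        have e : ((u⁻¹ : (E0 p n)ˣ) : E0 p n) * ((u : E0 p n) * vv p n h - s (vv p n h)) +
            ((u⁻¹ : (E0 p n)ˣ) : E0 p n) * s (vv p n h) = vv p n h := by
          rw [← mul_add, sub_add_cancel, ← mul_assoc, Units.inv_mul, one_mul]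
        rw [RingEquiv.toRingHom_eq_coe, RingHom.coe_coe]
        generalize s (vv p n h) = w at hmem e ⊢
        rw [← e]
        exact Submodule.add_mem_sup (Ideal.mul_mem_left _ _ hmem)
          (Ideal.mul_mem_left _ _ (Ideal.mem_span_singleton_self _))

theorem heightIdeal_top (hn : 1 ≤ n) :
    heightIdeal p n n = IsLocalRing.maximalIdeal (E0 p n) := by
  refine le_antisymm (IsLocalRing.le_maximalIdeal (heightIdeal_isPrime le_rfl).ne_top) fun a ha => ?_
  rw [heightIdeal_eq_ker hn le_rfl, RingHom.mem_ker]
  have ha0 : WittVector.constantCoeff (MvPowerSeries.constantCoeff a) = 0 := by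
    by_contra hne
    refine ha ?_
    rw [MvPowerSeries.isUnit_iff_constantCoeff]
    exact WittVector.isUnit_of_coeff_zero_ne_zero _ hne
  ext1 m
  rw [RingHom.comp_apply, red, MvPowerSeries.coeff_map, map_zero, kill, coeff_killVars]
  split_ifs with h
  · obtain rfl : m = 0 := by
      ext i
      exact h i (by simp [lowVars]; have := i.isLt; omega)
    rw [MvPowerSeries.coeff_zero_eq_constantCoeff_apply, ha0]
  · exact map_zero _

/-- Block A. -/
theorem blockA : BlockA := fun p n _ hn =>
  ⟨exists_universal p n, exists_hondaLift p, fun _ hF =>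
    ⟨fun h hh => ⟨heightIdeal_isPrime hh, heightIdeal_invariant hF h hh⟩, heightIdeal_top hn⟩⟩

end Vale.Agent.P217
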