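import Vale.Agent.P217.A.Group
import Vale.Agent.P217.Interfaces

/-!
# P217, block A: existence of the universal deformation and of the Honda lift
-/

noncomputable section

namespace Vale.Agent.P217

open Finset

variable (p n : ℕ) [Fact p.Prime]

/-- The map reducing the coefficients mod p. -/
def red : E0 p n →+* MvPowerSeries (Fin (n - 1)) (GaloisField p n) :=
  MvPowerSeries.map WittVector.constantCoeff

theorem p_dvd_of_red_eq_zero {a : E0 p n} (h : red p n a = 0) : (p : E0 p n) ∣ a := by
  have hc : ∀ m, (p : WittVector p (GaloisField p n)) ∣ MvPowerSeries.coeff m a := fun m => by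
    rw [← Ideal.mem_span_singleton, WittVector.mem_span_p_iff_coeff_zero_eq_zero]
    have := congrArg (MvPowerSeries.coeff m) h
    rw [red, MvPowerSeries.coeff_map, map_zero] at this
    exact this
  choose b hb using hc
  let bs : E0 p n := fun m => b m
  refine ⟨bs, ?_⟩
  ext1 m
  rw [hb m, ← map_natCast (MvPowerSeries.C (σ := Fin (n - 1))
    (R := WittVector p (GaloisField p n))) p, MvPowerSeries.coeff_C_mul]
  rfl

/-- The Frobenius lift of the Lubin-Tate ring. -/
def frobLift : E0 p n →+* E0 p n :=
  (MvPowerSeries.expand p (Fact.out : p.Prime).ne_zero).toRingHom.comp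
    (MvPowerSeries.map WittVector.frobenius)

theorem frobLift_spec (b : E0 p n) : (p : E0 p n) ∣ frobLift p n b - b ^ p := by
  refine p_dvd_of_red_eq_zero p n ?_
  have hp0 := (Fact.out : p.Prime).ne_zero
  have key : red p n (frobLift p n b) = (red p n b) ^ p := by
    rw [← MvPowerSeries.map_frobenius_expand p hp0 (f := red p n b)]
    simp only [red, frobLift, RingHom.comp_apply, AlgHom.toRingHom_eq_coe, RingHom.coe_coe,
      MvPowerSeries.map_expand]
    refine congrArg _ ?_
    ext1 m
    simp [MvPowerSeries.coeff_map, frobenius_def, WittVector.coeff_frobenius_charP]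
  rw [map_sub, map_pow, key, sub_self]

theorem frobLift_vv (i : ℕ) : frobLift p n (vv p n i) = vv p n i ^ p := by
  simp only [vv]
  split_ifs <;> simp [frobLift, zero_pow (Fact.out : p.Prime).ne_zero]

theorem p_ne_zero_E0 : (p : E0 p n) ≠ 0 := by
  rw [← map_natCast (MvPowerSeries.C (σ := Fin (n - 1)) (R := WittVector p (GaloisField p n))) p]
  intro h
  have := congrArg MvPowerSeries.constantCoeff h
  rw [MvPowerSeries.constantCoeff_C, map_zero] at this
  exact WittVector.p_nonzero p (GaloisField p n) this

theorem p_nonunit_E0 : (p : E0 p n) ∈ nonunits (E0 p n) := fun h => by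
  have := h.map (residue (p := p) (n := n))
  rw [map_natCast, CharP.cast_eq_zero] at this
  exact not_isUnit_zero this

/-- The Frobenius lift after inverting p. -/
def frobLiftInv : E0Inv p n →+* E0Inv p n :=
  IsLocalization.Away.lift (p : E0 p n) (g := (algebraMap (E0 p n) (E0Inv p n)).comp (frobLift p n))
    (by
      rw [RingHom.comp_apply, map_natCast]
      exact IsLocalization.Away.algebraMap_isUnit (p : E0 p n))

theorem frobLiftInv_algebraMap (b : E0 p n) :
    frobLiftInv p n (algebraMap _ _ b) = algebraMap _ _ (frobLift p n b) :=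
  IsLocalization.Away.lift_eq _ _ b

theorem vv_eq_zero {i : ℕ} (hi : n < i) : vv p n i = 0 := by
  simp [vv, show ¬(1 ≤ i ∧ i < n) by omega, show i ≠ n by omega]

/-- The functional equation data of the Lubin-Tate ring. -/
def ltData : FE.Data p (E0 p n) (E0Inv p n) where
  ι := algebraMap _ _
  inj := IsLocalization.injective _
    (powers_le_nonZeroDivisors_of_noZeroDivisors (p_ne_zero_E0 p n))
  σ := frobLift p n
  σK := frobLiftInv p n
  comm := frobLiftInv_algebraMap p n
  pinv := IsLocalization.Away.invSelf (p : E0 p n)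
  pinv_mul := by
    rw [← map_natCast (algebraMap (E0 p n) (E0Inv p n))]
    exact IsLocalization.Away.mul_invSelf _
  frob := frobLift_spec p n
  w := vv p n
  w_pow := frobLift_vv p n
  M := logCoeff p n
  M_zero := logCoeff.eq_1 p n
  M_succ k := by
    rw [logCoeff, ← mul_assoc, ← map_natCast (algebraMap (E0 p n) (E0Inv p n)),
      IsLocalization.Away.mul_invSelf, one_mul, Finset.sum_range fun j =>
        logCoeff p n j * algebraMap (E0 p n) (E0Inv p n) (vv p n (k + 1 - j)) ^ p ^ j]
    refine sum_congr rfl fun j _ => ?_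
    split_ifs with h
    · rfl
    · rw [vv_eq_zero p n (by omega), map_zero,
        zero_pow (pow_ne_zero _ (Fact.out : p.Prime).ne_zero), mul_zero]

theorem logSeries_eq : logSeries p n = (ltData p n).f := rfl

theorem exists_universal : ∃ F : FormalGroup (E0 p n), IsUniversalDeformation p n F := by
  haveI : CharP (E0 p n ⧸ Ideal.span {(p : E0 p n)}) p := CharP.quotient _ p (p_nonunit_E0 p n)
  obtain ⟨G, hG⟩ := (ltData p n).exists_formalGroup (Fact.out : p.Prime).one_lt
  exact ⟨G, hG⟩

/-- The functional equation data of the Honda law of height h. -/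
def hondaData (h : ℕ) (hh : 1 ≤ h) : FE.Data p ℤ_[p] ℚ_[p] where
  ι := algebraMap _ _
  inj := IsFractionRing.injective ℤ_[p] ℚ_[p]
  σ := RingHom.id _
  σK := RingHom.id _
  comm _ := rfl
  pinv := (p : ℚ_[p])⁻¹
  pinv_mul := mul_inv_cancel₀ (by exact_mod_cast (Fact.out : p.Prime).ne_zero)
  frob b := by
    rw [← Ideal.mem_span_singleton, ← PadicInt.maximalIdeal_eq_span_p, ← PadicInt.ker_toZMod,
      RingHom.mem_ker, map_sub, map_pow, RingHom.id_apply, ZMod.pow_card, sub_self]
  w i := if i = h then 1 else 0
  w_pow i := by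
    split_ifs <;> simp [zero_pow (Fact.out : p.Prime).ne_zero]
  M k := if h ∣ k then 1 / (p : ℚ_[p]) ^ (k / h) else 0
  M_zero := by simp
  M_succ k := by
    have hp0 : (p : ℚ_[p]) ≠ 0 := by exact_mod_cast (Fact.out : p.Prime).ne_zero
    by_cases hle : h ≤ k + 1
    · rw [Finset.sum_eq_single (k + 1 - h)]
      · rw [if_pos (by omega : k + 1 - (k + 1 - h) = h), map_one, one_pow, mul_one]
        by_cases hd : h ∣ k + 1
        · rw [if_pos hd, if_pos (Nat.dvd_sub hd dvd_rfl)]
          have hdiv : (k + 1) / h = (k + 1 - h) / h + 1 := by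
            rw [← Nat.add_div_right _ (by omega), Nat.sub_add_cancel hle]
          rw [hdiv, pow_succ]
          field_simp
        · rw [if_neg hd, if_neg fun hd' => hd ?_, mul_zero]
          have := Nat.dvd_add hd' (dvd_refl h)
          rwa [Nat.sub_add_cancel hle] at this
      · intro j hj hne
        rw [mem_range] at hj
        rw [if_neg (by omega : ¬k + 1 - j = h), map_zero,
          zero_pow (pow_ne_zero _ (Fact.out : p.Prime).ne_zero), mul_zero]
      · intro hne
        exact absurd (mem_range.2 (by omega)) hne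
    · rw [if_neg fun hd => hle (Nat.le_of_dvd (by omega) hd), mul_zero]
      refine (Finset.sum_eq_zero fun j _ => ?_).symm
      rw [if_neg (by omega : ¬k + 1 - j = h), map_zero,
        zero_pow (pow_ne_zero _ (Fact.out : p.Prime).ne_zero), mul_zero]

theorem exists_hondaLift (h : ℕ) (hh : 1 ≤ h) :
    ∃ G : FormalGroup ℤ_[p], IsHondaLift h G := by
  haveI : CharP (ℤ_[p] ⧸ Ideal.span {(p : ℤ_[p])}) p :=
    CharP.quotient _ p (PadicInt.p_nonunit)
  obtain ⟨G, hG⟩ := (hondaData p h hh).exists_formalGroup (Fact.out : p.Prime).one_lt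
  refine ⟨G, ?_⟩
  have hf : (hondaData p h hh).f = PowerSeries.mk fun N =>
      if N = p ^ Nat.log p N ∧ h ∣ Nat.log p N then 1 / (p : ℚ_[p]) ^ (Nat.log p N / h) else 0 := by
    ext N
    simp only [FE.Data.f, FE.pser, hondaData, PowerSeries.coeff_mk]
    by_cases h1 : N = p ^ Nat.log p N
    · by_cases h2 : h ∣ Nat.log p N
      · rw [if_pos h1, if_pos h2, if_pos ⟨h1, h2⟩]
      · rw [if_pos h1, if_neg h2, if_neg fun hc => h2 hc.2]
    · rw [if_neg h1, if_neg fun hc => h1 hc.1]
  rw [hf] at hG
  exact hG

end Vale.Agent.P217
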